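import Vale.Agent.P105.Level

/-! The starting level: an element of `ℤ[θ]` with conjugates on the unit circle of size `< 1/5000`
whose orbit stays away from the zeros of the cosine. -/

namespace Vale.Agent.P105

open Real Finset

/-- Lower rational bound for `θ`, scaled by `10³⁰`. -/
def thLo : ℤ := 1722083805739042245027069212153

/-- Upper rational bound for `θ`, scaled by `10³⁰`. -/
def thHi : ℤ := 1722083805739042245027069212155

/-- The scale `10³⁰`. -/
def scale : ℤ := 1000000000000000000000000000000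

theorem theta_lower : (thLo : ℝ) / scale < theta := by
  have h13 := sqrt13_lower
  have hu := theta_add_inv
  by_contra h
  push Not at h
  have h1 := one_lt_theta
  set t : ℝ := (thLo : ℝ) / scale
  have hmono : theta + theta⁻¹ ≤ t + t⁻¹ := by
    have e : t + t⁻¹ - (theta + theta⁻¹) = (t - theta) * (1 - (t * theta)⁻¹) := by
      have : 0 < t := by simp only [t, thLo, scale]; norm_num
      field_simp; ring
    have : (t * theta)⁻¹ ≤ 1 := inv_le_one_of_one_le₀ (by nlinarith)
    nlinarith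
  rw [hu] at hmono
  unfold uu at hmono
  simp only [t, thLo, scale] at hmono
  norm_num at hmono h13
  linarith

theorem theta_upper : theta < (thHi : ℝ) / scale := by
  have h13 := sqrt13_upper
  have hu := theta_add_inv
  by_contra h
  push Not at h
  have h1 := one_lt_theta
  set t : ℝ := (thHi : ℝ) / scale
  have ht1 : 1 < t := by simp only [t, thHi, scale]; norm_num
  have hmono : t + t⁻¹ ≤ theta + theta⁻¹ := by
    have e : theta + theta⁻¹ - (t + t⁻¹) = (theta - t) * (1 - (t * theta)⁻¹) := by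
      field_simp; ring
    have : (t * theta)⁻¹ ≤ 1 := inv_le_one_of_one_le₀ (by nlinarith)
    nlinarith
  rw [hu] at hmono
  unfold uu at hmono
  simp only [t, thHi, scale] at hmono
  norm_num at hmono h13
  linarith

/-- The cubic with coefficients `c` evaluated at `x`. -/
noncomputable def evalCubic (c : ℤ × ℤ × ℤ × ℤ) (x : ℝ) : ℝ :=
  c.1 + c.2.1 * x + c.2.2.1 * x ^ 2 + c.2.2.2 * x ^ 3

/-- Coefficients of `a θ^(-m)` in the power basis. -/
def coeffs : ℕ → ℤ × ℤ × ℤ × ℤ
  | 0 => (-5595161905, 2346097088, 6957521321, 9635337707)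
  | m + 1 =>
    let c := coeffs m
    (c.1 + c.2.1, c.1 + c.2.2.1, c.1 + c.2.2.2, -c.1)

/-- The starting multiplier. -/
noncomputable def baseA : ℝ := evalCubic (coeffs 0) theta

theorem evalCubic_coeffs (m : ℕ) : evalCubic (coeffs m) theta = baseA * theta⁻¹ ^ m := by
  induction m with
  | zero => simp [baseA]
  | succ m ih =>
    rw [pow_succ, ← mul_assoc, ← ih, inv_theta_eq]
    simp only [coeffs, evalCubic]
    push_cast
    linear_combination ((coeffs m).2.1 + (coeffs m).2.2.1 * theta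
      + (coeffs m).2.2.2 * theta ^ 2 : ℝ) * quartic_theta

/-- Scaled lower bound of `evalCubic c θ`. -/
def lowerInt (c : ℤ × ℤ × ℤ × ℤ) : ℤ :=
  c.1 * scale ^ 3 + (if 0 ≤ c.2.1 then c.2.1 * thLo else c.2.1 * thHi) * scale ^ 2
    + (if 0 ≤ c.2.2.1 then c.2.2.1 * thLo ^ 2 else c.2.2.1 * thHi ^ 2) * scale
    + (if 0 ≤ c.2.2.2 then c.2.2.2 * thLo ^ 3 else c.2.2.2 * thHi ^ 3)

/-- Scaled upper bound of `evalCubic c θ`. -/
def upperInt (c : ℤ × ℤ × ℤ × ℤ) : ℤ :=
  c.1 * scale ^ 3 + (if 0 ≤ c.2.1 then c.2.1 * thHi else c.2.1 * thLo) * scale ^ 2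
    + (if 0 ≤ c.2.2.1 then c.2.2.1 * thHi ^ 2 else c.2.2.1 * thLo ^ 2) * scale
    + (if 0 ≤ c.2.2.2 then c.2.2.2 * thHi ^ 3 else c.2.2.2 * thLo ^ 3)

/-- The half integer nearest to the scaled value, doubled. -/
def nearHalf (c : ℤ × ℤ × ℤ × ℤ) : ℤ := (2 * lowerInt c + scale ^ 3 / 2) / scale ^ 3

/-- The scaled value is at distance at least `1/32` from the zeros of the cosine. -/
def safe (c : ℤ × ℤ × ℤ × ℤ) : Bool :=
  decide ((16 * nearHalf c - 7) * scale ^ 3 ≤ 32 * lowerInt c) &&
    decide (32 * upperInt c ≤ (16 * nearHalf c + 7) * scale ^ 3)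

theorem safe_coeffs : ∀ m : Fin 58, safe (coeffs m) = true := by decide +kernel

theorem coef_bounds (c : ℤ) (k : ℕ) :
    ((if 0 ≤ c then c * thLo ^ k else c * thHi ^ k : ℤ) : ℝ) ≤ c * theta ^ k * (scale : ℝ) ^ k ∧
    (c : ℝ) * theta ^ k * (scale : ℝ) ^ k ≤
      ((if 0 ≤ c then c * thHi ^ k else c * thLo ^ k : ℤ) : ℝ) := by
  have hs : (0 : ℝ) < scale := by simp only [scale]; norm_num
  have hlo : (thLo : ℝ) ≤ theta * scale := by
    have := theta_lower; rw [div_lt_iff₀ hs] at this; exact this.le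
  have hhi : theta * scale ≤ (thHi : ℝ) := by
    have := theta_upper; rw [lt_div_iff₀ hs] at this; exact this.le
  have h0 : (0 : ℝ) ≤ thLo := by simp only [thLo]; norm_num
  have hl := pow_le_pow_left₀ h0 hlo k
  have hh := pow_le_pow_left₀ (mul_nonneg theta_pos.le hs.le) hhi k
  rw [mul_assoc, ← mul_pow]
  split_ifs with hc
  · have hc' : (0 : ℝ) ≤ c := by exact_mod_cast hc
    push_cast
    exact ⟨mul_le_mul_of_nonneg_left hl hc', mul_le_mul_of_nonneg_left hh hc'⟩
  · have hc' : (c : ℝ) ≤ 0 := by exact_mod_cast (le_of_lt (not_le.1 hc))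
    push_cast
    exact ⟨mul_le_mul_of_nonpos_left hh hc', mul_le_mul_of_nonpos_left hl hc'⟩

theorem evalCubic_bounds (c : ℤ × ℤ × ℤ × ℤ) :
    (lowerInt c : ℝ) ≤ evalCubic c theta * (scale : ℝ) ^ 3 ∧
    evalCubic c theta * (scale : ℝ) ^ 3 ≤ (upperInt c : ℝ) := by
  have hs : (0 : ℝ) < scale := by simp only [scale]; norm_num
  obtain ⟨a1, b1⟩ := coef_bounds c.2.1 1
  obtain ⟨a2, b2⟩ := coef_bounds c.2.2.1 2
  obtain ⟨a3, b3⟩ := coef_bounds c.2.2.2 3
  simp only [pow_one] at a1 b1
  simp only [lowerInt, upperInt, evalCubic]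
  push_cast at a1 b1 a2 b2 a3 b3 ⊢
  have s2 : (0 : ℝ) ≤ (scale : ℝ) ^ 2 := by positivity
  constructor
  · linear_combination (scale : ℝ) ^ 2 * a1 + (scale : ℝ) * a2 + a3
  · linear_combination (scale : ℝ) ^ 2 * b1 + (scale : ℝ) * b2 + b3

/-- The conjugate of `baseA` at `1/θ`. -/
noncomputable def baseEta : ℝ := evalCubic (coeffs 0) theta⁻¹

/-- The conjugate of `baseA` at `ω`. -/
noncomputable def baseZ : ℂ :=
  (-5595161905 : ℂ) + 2346097088 * omega + 6957521321 * omega ^ 2 + 9635337707 * omega ^ 3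

theorem base_trace (n : ℕ) : ∃ m : ℤ,
    baseA * theta ^ n + baseEta * theta⁻¹ ^ n + 2 * (baseZ * omega ^ n).re = m := by
  obtain ⟨a, ha⟩ := trSum_int n
  obtain ⟨b, hb⟩ := trSum_int (n + 1)
  obtain ⟨c, hc⟩ := trSum_int (n + 2)
  obtain ⟨d, hd⟩ := trSum_int (n + 3)
  refine ⟨-5595161905 * a + 2346097088 * b + 6957521321 * c + 9635337707 * d, ?_⟩
  have e : baseZ * omega ^ n = ((-5595161905 : ℝ) : ℂ) * omega ^ n
      + ((2346097088 : ℝ) : ℂ) * omega ^ (n + 1) + ((6957521321 : ℝ) : ℂ) * omega ^ (n + 2)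
      + ((9635337707 : ℝ) : ℂ) * omega ^ (n + 3) := by
    unfold baseZ; push_cast; ring
  rw [e, Complex.add_re, Complex.add_re, Complex.add_re, Complex.re_ofReal_mul,
    Complex.re_ofReal_mul, Complex.re_ofReal_mul, Complex.re_ofReal_mul]
  push_cast
  rw [← ha, ← hb, ← hc, ← hd]
  simp only [trSum, baseA, baseEta, evalCubic, coeffs]
  push_cast
  ring

theorem baseA_bounds : 1 ≤ baseA ∧ baseA ≤ theta ^ 46 := by
  obtain ⟨h1, h2⟩ := evalCubic_bounds (coeffs 0)
  have hl := pow_le_pow_left₀ (by simp only [thLo, scale]; norm_num) theta_lower.le 46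
  simp only [lowerInt, upperInt, coeffs, thLo, thHi, scale] at h1 h2
  simp only [thLo, scale] at hl
  norm_num at h1 h2 hl
  unfold baseA
  simp only [coeffs]
  constructor <;> nlinarith

theorem baseEta_le : |baseEta| ≤ 11 / 100 := by
  have h : baseEta = evalCubic (coeffs 0) theta⁻¹ := rfl
  have e1 := theta_add_inv
  have ei : theta⁻¹ ^ 2 = uu * theta⁻¹ - 1 := by
    have := theta_pos
    field_simp
    linear_combination theta_eq
  have e3 : theta⁻¹ ^ 3 = (uu ^ 2 - 1) * theta⁻¹ - uu := by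
    linear_combination (theta⁻¹ + uu) * ei
  have hl := theta_lower; have hh := theta_upper
  have h13 := sqrt13_lower; have h13' := sqrt13_upper
  simp only [thLo, thHi, scale] at hl hh
  norm_num at hl hh h13 h13'
  rw [h, evalCubic, ei, e3, uu_sq, show theta⁻¹ = uu - theta by linarith]
  simp only [coeffs]
  push_cast
  have hu : uu = (1 + √13) / 2 := rfl
  rw [abs_le]
  constructor <;>
    nlinarith [uu_sq, mul_le_mul_of_nonneg_left hl.le (show 0 ≤ uu by linarith [uu_bounds.1]),
      mul_le_mul_of_nonneg_left hh.le (show 0 ≤ uu by linarith [uu_bounds.1])]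

theorem baseZ_le : ‖baseZ‖ ≤ 1 / 5000 := by
  set X : ℝ := -5595161905 - 6957521321 - 9635337707 * (2 * cc)
  set Y : ℝ := 2346097088 + 6957521321 * (2 * cc) + 9635337707 * (2 * cc + 2)
  have h2 := omega_eq
  have hc4 : (4 : ℂ) * (cc : ℂ) ^ 2 = 2 * (cc : ℂ) + 3 := by exact_mod_cast cc_sq
  have e : baseZ = (X : ℂ) + (Y : ℂ) * omega := by
    simp only [baseZ, X, Y]
    push_cast at h2 ⊢
    linear_combination ((6957521321 : ℂ) + 9635337707 * (omega + 2 * (cc : ℂ))) * h2
      + (9635337707 : ℂ) * omega * hc4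
  have hsq : ‖baseZ‖ ^ 2 = X ^ 2 + 2 * cc * X * Y + Y ^ 2 := by
    have h1 : omega.re ^ 2 + omega.im ^ 2 = 1 := by
      have := Complex.normSq_apply omega
      rw [Complex.normSq_eq_norm_sq, norm_omega] at this
      linarith
    rw [← Complex.normSq_eq_norm_sq, e, Complex.normSq_apply]
    simp only [Complex.add_re, Complex.add_im, Complex.mul_re, Complex.mul_im, Complex.ofReal_re,
      Complex.ofReal_im]
    rw [omega_re] at h1 ⊢
    linear_combination Y ^ 2 * h1
  have h13 := sqrt13_lower; have h13' := sqrt13_upper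
  norm_num at h13 h13'
  have hX : (599783 : ℝ) / 10 ^ 10 ≤ X ∧ X ≤ 599784 / 10 ^ 10 := by
    simp only [X, cc]
    constructor <;> · norm_num; linarith
  have hY : (2151843 : ℝ) / 10 ^ 10 ≤ Y ∧ Y ≤ 2151844 / 10 ^ 10 := by
    simp only [Y, cc]
    constructor <;> · norm_num; linarith
  have hcc : cc ≤ -65 / 100 := by
    simp only [cc]; norm_num; linarith
  have hXY : (599783 : ℝ) / 10 ^ 10 * (2151843 / 10 ^ 10) ≤ X * Y :=
    mul_le_mul hX.1 hY.1 (by norm_num) (le_trans (by norm_num) hX.1)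
  have hX0 : 0 ≤ X := le_trans (by norm_num) hX.1
  have hY0 : 0 ≤ Y := le_trans (by norm_num) hY.1
  have hXX := pow_le_pow_left₀ hX0 hX.2 2
  have hYY := pow_le_pow_left₀ hY0 hY.2 2
  refine abs_le_of_sq_le_sq' ?_ (by norm_num) |>.2
  nlinarith [mul_nonneg hX0 hY0]

/-- The starting level. -/
noncomputable def baseLevel : Level := ⟨baseA, baseEta, baseZ, 1 / 5000, 3000, 46⟩

theorem baseLevel_forward (n : ℕ) : ∃ (m : ℤ) (e : ℝ),
    baseLevel.pos n = e + m ∧ |e| ≤ 11 / 100 * theta⁻¹ ^ n + 2 / 5000 := by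
  obtain ⟨m, hm⟩ := base_trace n
  refine ⟨m, -(baseEta * theta⁻¹ ^ n) - 2 * (baseZ * omega ^ n).re, ?_, ?_⟩
  · simp only [Level.pos, baseLevel]; rw [zpow_natCast]; linarith
  · have hp := pow_nonneg inv_theta_pos.le n
    have h1 : |baseEta * theta⁻¹ ^ n| ≤ 11 / 100 * theta⁻¹ ^ n := by
      rw [abs_mul, abs_of_nonneg hp]
      exact mul_le_mul_of_nonneg_right baseEta_le hp
    have h2 : |(baseZ * omega ^ n).re| ≤ 1 / 5000 := by
      refine (Complex.abs_re_le_norm _).trans ?_
      rw [norm_mul, norm_pow, norm_omega, one_pow, mul_one]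
      exact baseZ_le
    rw [abs_le] at h1 h2 ⊢
    constructor <;> linarith

theorem baseLevel_neg (m : ℕ) : baseLevel.pos (-(m : ℤ)) = evalCubic (coeffs m) theta := by
  rw [evalCubic_coeffs]
  simp [Level.pos, baseLevel]

theorem baseLevel_far {l : ℤ} (hl : l ≤ -58) :
    |baseLevel.pos l| ≤ theta⁻¹ ^ (-46 - l).toNat ∧ |baseLevel.pos l| ≤ 1 / 50 := by
  obtain ⟨h1, h2⟩ := baseA_bounds
  have hb : |baseLevel.pos l| ≤ theta⁻¹ ^ (-46 - l).toNat := by
    have hpos : 0 ≤ baseA * theta ^ l := mul_nonneg (by linarith) (zpow_pos theta_pos l).le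
    simp only [Level.pos, baseLevel]
    rw [abs_of_nonneg hpos]
    refine (mul_le_mul_of_nonneg_right h2 (zpow_pos theta_pos l).le).trans (le_of_eq ?_)
    rw [← zpow_natCast, ← zpow_add₀ theta_pos.ne', ← zpow_neg_nat]
    congr 1
    omega
  refine ⟨hb, hb.trans ?_⟩
  calc theta⁻¹ ^ (-46 - l).toNat ≤ theta⁻¹ ^ 12 :=
        pow_le_pow_of_le_one inv_theta_pos.le (by linarith [inv_theta_le]) (by omega)
    _ ≤ (59 / 100) ^ 12 := pow_le_pow_left₀ inv_theta_pos.le inv_theta_le _
    _ ≤ _ := by norm_num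

theorem baseLevel_cz (l : ℤ) : 1 / 8 ≤ |cz (baseLevel.pos l)| := by
  rcases le_or_gt 0 l with hl | hl
  · obtain ⟨m, e, he, hb⟩ := baseLevel_forward l.toNat
    rw [Int.toNat_of_nonneg hl] at he
    rw [he, cz_add_int]
    have := pow_le_one₀ (n := l.toNat) inv_theta_pos.le (by linarith [inv_theta_le])
    refine le_trans ?_ (cz_lower (d := 1 / 32) 0 (by norm_num) ?_)
    · norm_num
    · simp only [Int.cast_zero, zero_div, sub_zero]; linarith
  rcases le_or_gt l (-58) with hf | hf
  · refine le_trans ?_ (cz_lower (d := 1 / 32) 0 (by norm_num) ?_)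
    · norm_num
    · simp only [Int.cast_zero, zero_div, sub_zero]; linarith [(baseLevel_far hf).2]
  obtain ⟨m, rfl⟩ : ∃ m : ℕ, l = -(m : ℤ) := ⟨(-l).toNat, by omega⟩
  rw [baseLevel_neg]
  have hs := safe_coeffs ⟨m, by omega⟩
  simp only [safe, Bool.and_eq_true, decide_eq_true_eq] at hs
  obtain ⟨s1, s2⟩ := hs
  obtain ⟨b1, b2⟩ := evalCubic_bounds (coeffs m)
  set k := nearHalf (coeffs m)
  set x := evalCubic (coeffs m) theta
  have hden : (0 : ℝ) < (scale : ℝ) ^ 3 := by simp only [scale]; norm_num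
  have s1' : ((16 * k - 7) * scale ^ 3 : ℝ) ≤ 32 * (lowerInt (coeffs m) : ℝ) := by exact_mod_cast s1
  have s2' : 32 * (upperInt (coeffs m) : ℝ) ≤ ((16 * k + 7) * scale ^ 3 : ℝ) := by exact_mod_cast s2
  refine le_trans ?_ (cz_lower (d := 1 / 32) k (by norm_num) ?_)
  · norm_num
  · rw [abs_le]
    have t1 : (16 * (k : ℝ) - 7) ≤ 32 * x :=
      le_of_mul_le_mul_right (by linarith) hden
    have t2 : 32 * x ≤ 16 * (k : ℝ) + 7 :=
      le_of_mul_le_mul_right (by linarith) hden
    constructor <;> linarith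

theorem baseLevel_good : Good baseLevel := by
  have hq := inv_theta_pos
  refine ⟨base_trace, baseA_bounds.1, baseA_bounds.2, baseEta_le, baseZ_le, by norm_num [baseLevel],
    by norm_num [baseLevel], by norm_num [baseLevel], by norm_num [baseLevel], ?_, ?_⟩
  · intro l
    refine le_trans ?_ (baseLevel_cz l)
    simp only [baseLevel]
    have := inv_pow_small (show 20 ≤ 46 by norm_num)
    linarith
  · intro lo N hN
    simp only [show baseLevel.B = 3000 from rfl, show baseLevel.D = 1 / 5000 from rfl] at hN ⊢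
    set q : ℝ := theta⁻¹ ^ 2
    have hq1 : q < 1 / 2 := by have := inv_theta_le; nlinarith
    have hqi : (1 - q)⁻¹ ≤ 2 := by rw [inv_le_iff_one_le_mul₀ (by linarith)]; linarith
    set A : ℤ → ℝ := fun l =>
      if l ≤ -58 then 50 * q ^ (-58 - l).toNat
      else if l < 20 then 8 else 100 * q ^ (l - 20).toNat + 400 * (1 / 5000) ^ 2
    have hA : ∀ l : ℤ, cost (baseLevel.pos l) ≤ A l := by
      intro l
      by_cases h1 : l ≤ -58
      · simp only [A, if_pos h1]
        obtain ⟨hb, hb50⟩ := baseLevel_far h1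
        refine (cost_small hb50).trans ?_
        rw [← sq_abs]
        refine mul_le_mul_of_nonneg_left ?_ (by norm_num)
        refine (pow_le_pow_left₀ (abs_nonneg _) hb 2).trans ?_
        simp only [q, ← pow_mul]
        exact pow_le_pow_of_le_one hq.le (by linarith [inv_theta_le]) (by omega)
      by_cases h2 : l < 20
      · simp only [A, if_neg h1, if_pos h2]
        have hc := baseLevel_cz l
        unfold cost
        have := Real.one_sub_inv_le_log_of_pos (show 0 < |cz (baseLevel.pos l)| by linarith)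
        have h8 : |cz (baseLevel.pos l)|⁻¹ ≤ 8 := by
          rw [inv_le_iff_one_le_mul₀ (by linarith)]; linarith
        linarith
      · simp only [A, if_neg h1, if_neg h2]
        obtain ⟨m, e, he, hb⟩ := baseLevel_forward l.toNat
        rw [Int.toNat_of_nonneg (by omega)] at he
        rw [he, cost_add_int]
        have hp := inv_pow_small (show 20 ≤ l.toNat by omega)
        refine (cost_small (by linarith)).trans ?_
        have hb2 := pow_le_pow_left₀ (abs_nonneg e) hb 2
        rw [sq_abs] at hb2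
        have hle : theta⁻¹ ^ l.toNat ≤ theta⁻¹ ^ (l - 20).toNat :=
          pow_le_pow_of_le_one hq.le (by linarith [inv_theta_le]) (by omega)
        have hpn := pow_nonneg hq.le l.toNat
        have hsq := pow_le_pow_left₀ hpn hle 2
        have e2 : q ^ (l - 20).toNat = (theta⁻¹ ^ (l - 20).toNat) ^ 2 := by
          simp only [q, ← pow_mul]; ring_nf
        rw [e2]
        nlinarith [sq_nonneg (theta⁻¹ ^ l.toNat - 2 / 5000)]
    refine (sum_le_sum fun l _ => hA l).trans ?_
    simp only [A, sum_ite, sum_add_distrib, ← mul_sum, sum_const, nsmul_eq_mul]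
    simp only [filter_filter]
    have g1 := ((sum_geom_int_le (by positivity) (by linarith) (Icc lo N) (-58)).1).trans hqi
    have g2 : ∑ l ∈ (Icc lo N).filter (fun l => ¬ l ≤ -58 ∧ ¬ l < 20), q ^ (l - 20).toNat ≤ 2 := by
      refine (sum_le_sum_of_subset_of_nonneg (t := (Icc lo N).filter (fun l => (20 : ℤ) ≤ l)) ?_
        fun _ _ _ => by positivity).trans
        (((sum_geom_int_le (by positivity) (by linarith) (Icc lo N) 20).2).trans hqi)
      intro l; simp only [mem_filter, mem_Icc]; omega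
    have g3 : ((((Icc lo N).filter (fun l => ¬ l ≤ -58 ∧ l < 20)).card : ℕ) : ℝ) ≤ 77 := by
      have hs : (Icc lo N).filter (fun l => ¬ l ≤ -58 ∧ l < 20) ⊆ Icc (-57 : ℤ) 19 := by
        intro l; simp only [mem_filter, mem_Icc]; omega
      have := card_le_card hs
      rw [Int.card_Icc] at this
      exact_mod_cast (show ((Icc lo N).filter (fun l => ¬ l ≤ -58 ∧ l < 20)).card ≤ 77 by omega)
    have g4 : ((((Icc lo N).filter (fun l => ¬ l ≤ -58 ∧ ¬ l < 20)).card : ℕ) : ℝ)
        * (400 * (1 / 5000) ^ 2) ≤ 800 := by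
      rcases lt_or_ge N 20 with hN0 | hN0
      · rw [filter_false_of_mem (fun l hl => by rw [mem_Icc] at hl; omega)]; norm_num
      · have hs : (Icc lo N).filter (fun l => ¬ l ≤ -58 ∧ ¬ l < 20) ⊆ Icc (20 : ℤ) N := by
          intro l; simp only [mem_filter, mem_Icc]; omega
        have := card_le_card hs
        rw [Int.card_Icc] at this
        have hc : ((((Icc lo N).filter (fun l => ¬ l ≤ -58 ∧ ¬ l < 20)).card : ℤ) : ℝ) ≤ (N : ℝ) := by
          exact_mod_cast (show (((Icc lo N).filter (fun l => ¬ l ≤ -58 ∧ ¬ l < 20)).card : ℤ) ≤ N by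
            omega)
        push_cast at hc
        linarith
    linarith

end Vale.Agent.P105
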