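import Vale.Agent.P105.Defs

/-! Support and Fourier transform of the Bernoulli convolution. -/

namespace Vale.Agent.P105

open MeasureTheory Filter Topology Finset

instance : IsProbabilityMeasure fairCoin := by
  constructor
  simp [fairCoin, ENNReal.inv_two_add_inv_two]

instance : IsProbabilityMeasure fairSeq := by
  unfold fairSeq; infer_instance

theorem integral_fairCoin (f : Bool → ℂ) :
    ∫ b, f b ∂fairCoin = (f true + f false) / 2 := by
  rw [integral_fintype Integrable.of_finite, Fintype.sum_bool]
  simp [fairCoin, measureReal_def]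
  ring

variable {lam : ℝ}

theorem abs_boolSign (b : Bool) : |boolSign b| = 1 := by cases b <;> simp [boolSign]

theorem summable_terms (h0 : 0 ≤ lam) (h1 : lam < 1) (w : ℕ → Bool) :
    Summable fun n => boolSign (w n) * lam ^ n :=
  Summable.of_norm_bounded (summable_geometric_of_lt_one h0 h1) fun n => by
    rw [Real.norm_eq_abs, abs_mul, abs_boolSign, one_mul, abs_of_nonneg (pow_nonneg h0 n)]

theorem continuous_randomSeries (h0 : 0 ≤ lam) (h1 : lam < 1) :
    Continuous (randomSeries lam) := by
  apply continuous_tsum (fun n => ?_) (summable_geometric_of_lt_one h0 h1) (fun n w => ?_)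
  · exact ((continuous_of_discreteTopology (f := boolSign)).comp (continuous_apply n)).mul
      continuous_const
  · rw [Real.norm_eq_abs, abs_mul, abs_boolSign, one_mul, abs_of_nonneg (pow_nonneg h0 n)]

theorem measurable_randomSeries (h0 : 0 ≤ lam) (h1 : lam < 1) :
    Measurable (randomSeries lam) :=
  (continuous_randomSeries h0 h1).measurable

theorem isProbabilityMeasure_bernoulliConv (h0 : 0 ≤ lam) (h1 : lam < 1) :
    IsProbabilityMeasure (bernoulliConv lam) :=
  Measure.isProbabilityMeasure_map (measurable_randomSeries h0 h1).aemeasurable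

theorem abs_randomSeries_le (h0 : 0 ≤ lam) (h1 : lam < 1) (w : ℕ → Bool) :
    |randomSeries lam w| ≤ (1 - lam)⁻¹ := by
  have h := tsum_of_norm_bounded (hasSum_geometric_of_lt_one h0 h1)
    (f := fun n => boolSign (w n) * lam ^ n) fun n => by
    rw [Real.norm_eq_abs, abs_mul, abs_boolSign, one_mul, abs_of_nonneg (pow_nonneg h0 n)]
  exact h

theorem bernoulliConv_ae_abs_le (h0 : 0 ≤ lam) (h1 : lam < 1) :
    ∀ᵐ x ∂bernoulliConv lam, |x| ≤ (1 - lam)⁻¹ := by
  unfold bernoulliConv
  rw [ae_map_iff (measurable_randomSeries h0 h1).aemeasurable]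
  · exact ae_of_all _ (abs_randomSeries_le h0 h1)
  · exact measurableSet_le measurable_id.abs measurable_const

theorem integral_exp_partial (t : ℝ) (K : ℕ) :
    ∫ w, ∏ n ∈ range K, Complex.exp ((t * (boolSign (w n) * lam ^ n) : ℝ) * Complex.I) ∂fairSeq
      = ∏ n ∈ range K, (Real.cos (t * lam ^ n) : ℂ) := by
  set g : ℕ → Bool → ℂ := fun n b =>
    Complex.exp ((t * (boolSign b * lam ^ n) : ℝ) * Complex.I)
  have hmap : fairSeq.map (fun w (i : range K) => w i) = Measure.pi fun _ : range K => fairCoin :=
    Measure.infinitePi_map_restrict _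
  have hcont : Continuous fun v : range K → Bool => ∏ i : range K, g i (v i) :=
    continuous_of_discreteTopology
  calc ∫ w, ∏ n ∈ range K, g n (w n) ∂fairSeq
      = ∫ w, (∏ i : range K, g i ((fun w (i : range K) => w i) w i)) ∂fairSeq := by
        congr 1; ext w; exact (Finset.prod_coe_sort (range K) (fun n => g n (w n))).symm
    _ = ∫ v, ∏ i : range K, g i (v i) ∂(Measure.pi fun _ : range K => fairCoin) := by
        rw [← hmap, integral_map]
        · exact (measurable_pi_lambda _ fun i => measurable_pi_apply _).aemeasurable
        · exact hcont.aestronglyMeasurable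
    _ = ∏ i : range K, ∫ b, g i b ∂fairCoin :=
        integral_fintype_prod_eq_prod (μ := fun _ => fairCoin) (fun i : range K => g i)
    _ = ∏ i : range K, (Real.cos (t * lam ^ (i : ℕ)) : ℂ) := by
        refine Finset.prod_congr rfl fun i _ => ?_
        rw [integral_fairCoin]
        simp only [g, boolSign, if_true, Bool.false_eq_true, if_false, one_mul,
          mul_neg, Complex.ofReal_neg, neg_mul]
        rw [Complex.ofReal_cos, Complex.cos]
        ring_nf
    _ = _ := Finset.prod_coe_sort (range K) (fun n => (Real.cos (t * lam ^ n) : ℂ))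

/-- The cosine transform is the limit of the finite cosine products. -/
theorem tendsto_prod_cos (h0 : 0 ≤ lam) (h1 : lam < 1) (t : ℝ) :
    Tendsto (fun K => ∏ n ∈ range K, Real.cos (t * lam ^ n)) atTop
      (𝓝 (∫ x, Real.cos (t * x) ∂bernoulliConv lam)) := by
  set part : ℕ → (ℕ → Bool) → ℝ := fun K w => ∑ n ∈ range K, boolSign (w n) * lam ^ n
  have hpart : ∀ K, Continuous (part K) := fun K => continuous_finsetSum _ fun n _ =>
    ((continuous_of_discreteTopology (f := boolSign)).comp (continuous_apply n)).mul
      continuous_const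
  have hK : ∀ K, ∫ w, Real.cos (t * part K w) ∂fairSeq
      = ∏ n ∈ range K, Real.cos (t * lam ^ n) := by
    intro K
    have h := integral_exp_partial (lam := lam) t K
    have e : ∀ w : ℕ → Bool,
        ∏ n ∈ range K, Complex.exp ((t * (boolSign (w n) * lam ^ n) : ℝ) * Complex.I)
          = Complex.exp ((t * part K w : ℝ) * Complex.I) := by
      intro w
      rw [← Complex.exp_sum]
      congr 1
      simp only [part, Finset.mul_sum, Finset.sum_mul, Complex.ofReal_sum]
    simp only [e] at h
    have hint : Integrable (fun w => Complex.exp ((t * part K w : ℝ) * Complex.I)) fairSeq :=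
      Integrable.of_bound (Continuous.aestronglyMeasurable (by fun_prop)) 1
        (ae_of_all _ fun w => (Complex.norm_exp_ofReal_mul_I _).le)
    have h2 := congrArg Complex.re h
    have h3 : (∫ w, Complex.exp ((t * part K w : ℝ) * Complex.I) ∂fairSeq).re
        = ∫ w, Real.cos (t * part K w) ∂fairSeq := by
      rw [← RCLike.re_eq_complex_re, ← integral_re hint]
      exact integral_congr_ae (ae_of_all _ fun w => Complex.exp_ofReal_mul_I_re _)
    rw [h3] at h2
    rw [h2, ← Complex.ofReal_prod, Complex.ofReal_re]
  have hlim : Tendsto (fun K => ∫ w, Real.cos (t * part K w) ∂fairSeq) atTop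
      (𝓝 (∫ w, Real.cos (t * randomSeries lam w) ∂fairSeq)) := by
    refine tendsto_integral_of_dominated_convergence (fun _ => 1) (fun K => ?_)
      (integrable_const _) (fun K => ae_of_all _ fun w => ?_) (ae_of_all _ fun w => ?_)
    · exact (Real.continuous_cos.comp (continuous_const.mul (hpart K))).aestronglyMeasurable
    · rw [Real.norm_eq_abs]; exact Real.abs_cos_le_one _
    · exact ((Real.continuous_cos.tendsto _).comp
        (((summable_terms h0 h1 w).hasSum.tendsto_sum_nat).const_mul t))
  simp only [hK] at hlim
  convert hlim using 2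
  unfold bernoulliConv
  rw [integral_map (measurable_randomSeries h0 h1).aemeasurable]
  exact (Real.continuous_cos.comp (continuous_const.mul continuous_id)).aestronglyMeasurable

end Vale.Agent.P105
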