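import Vale.Agent.P105.Defs

/-! The quartic Salem number `θ`, root of `x⁴ - x³ - x² - x + 1`, and its conjugates. -/

namespace Vale.Agent.P105

open Real

/-- `θ + 1/θ`. -/
noncomputable def uu : ℝ := (1 + √13) / 2

/-- The Salem number `θ ≈ 1.7221`. -/
noncomputable def theta : ℝ := (uu + √(uu ^ 2 - 4)) / 2

/-- The real part of the conjugates of `θ` on the unit circle. -/
noncomputable def cc : ℝ := (1 - √13) / 4

/-- The argument of the conjugate `ω`. -/
noncomputable def phi : ℝ := Real.arccos cc

/-- The conjugate of `θ` on the unit circle. -/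
noncomputable def omega : ℂ := Complex.exp (phi * Complex.I)

theorem sqrt13_sq : √13 * √13 = (13 : ℝ) := Real.mul_self_sqrt (by norm_num)

theorem sqrt13_lower : (3605551275463989293119221267470 : ℝ) / 10 ^ 30 ≤ √13 := by
  rw [Real.le_sqrt (by norm_num) (by norm_num)]; norm_num

theorem sqrt13_upper : √13 ≤ (3605551275463989293119221267471 : ℝ) / 10 ^ 30 := by
  rw [Real.sqrt_le_iff]; norm_num

theorem uu_bounds : 23 / 10 < uu ∧ uu < 231 / 100 := by
  have := sqrt13_lower; have := sqrt13_upper
  unfold uu
  constructor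
  · norm_num at *; linarith
  · norm_num at *; linarith

theorem uu_sq : uu ^ 2 = uu + 3 := by
  unfold uu
  linear_combination (1 / 4 : ℝ) * sqrt13_sq

theorem cc_sq : 4 * cc ^ 2 = 2 * cc + 3 := by
  unfold cc
  linear_combination (1 / 4 : ℝ) * sqrt13_sq

theorem uu_add_cc : uu + 2 * cc = 1 := by unfold uu cc; ring

theorem uu_mul_cc : uu * (2 * cc) = -3 := by
  unfold uu cc
  linear_combination (-1 / 4 : ℝ) * sqrt13_sq

theorem theta_eq : theta ^ 2 = uu * theta - 1 := by
  have h : 0 ≤ uu ^ 2 - 4 := by nlinarith [uu_bounds.1]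
  have hs := Real.mul_self_sqrt h
  unfold theta
  linear_combination (1 / 4 : ℝ) * hs

theorem theta_bounds : (17 : ℝ) / 10 < theta ∧ theta < 174 / 100 := by
  have hu := uu_bounds
  have h : 0 ≤ uu ^ 2 - 4 := by nlinarith
  have h1 : (112 : ℝ) / 100 < √(uu ^ 2 - 4) := by
    rw [Real.lt_sqrt (by norm_num)]; nlinarith
  have h2 : √(uu ^ 2 - 4) < 116 / 100 := by
    rw [Real.sqrt_lt h (by norm_num)]; nlinarith
  unfold theta
  constructor <;> linarith

theorem theta_pos : 0 < theta := by linarith [theta_bounds.1]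

theorem one_lt_theta : 1 < theta := by linarith [theta_bounds.1]

theorem theta_add_inv : theta + theta⁻¹ = uu := by
  have := theta_pos
  field_simp
  linear_combination theta_eq

theorem quartic_theta : theta ^ 4 - theta ^ 3 - theta ^ 2 - theta + 1 = 0 := by
  linear_combination (theta ^ 2 + (uu - 1) * theta + 1) * theta_eq + theta ^ 2 * uu_sq

theorem quartic_inv : (theta⁻¹) ^ 4 - (theta⁻¹) ^ 3 - (theta⁻¹) ^ 2 - theta⁻¹ + 1 = 0 := by
  have := theta_pos
  field_simp
  linear_combination quartic_theta

theorem abs_cc_lt : -1 < cc ∧ cc < 0 := by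
  have := sqrt13_lower; have := sqrt13_upper
  unfold cc
  constructor
  · norm_num at *; linarith
  · norm_num at *; linarith

theorem cos_phi : Real.cos phi = cc :=
  Real.cos_arccos abs_cc_lt.1.le (by linarith [abs_cc_lt.2])

theorem norm_omega : ‖omega‖ = 1 := Complex.norm_exp_ofReal_mul_I _

theorem omega_re : omega.re = cc := by
  rw [omega, Complex.exp_ofReal_mul_I_re, cos_phi]

theorem omega_eq : omega ^ 2 = (2 * cc : ℝ) * omega - 1 := by
  have h1 : omega * (starRingEnd ℂ) omega = 1 := by
    rw [Complex.mul_conj, Complex.normSq_eq_norm_sq, norm_omega]; simp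
  have h2 : omega + (starRingEnd ℂ) omega = (2 * cc : ℝ) := by
    rw [Complex.add_conj, omega_re]
  linear_combination omega * h2 - h1

theorem quartic_omega : omega ^ 4 - omega ^ 3 - omega ^ 2 - omega + 1 = 0 := by
  have hu : ((uu : ℂ)) + ((2 * cc : ℝ) : ℂ) = 1 := by exact_mod_cast uu_add_cc
  have hm : ((uu : ℂ)) * ((2 * cc : ℝ) : ℂ) = -3 := by exact_mod_cast uu_mul_cc
  linear_combination (omega ^ 2 - (uu : ℂ) * omega + 1) * omega_eq
    + (omega ^ 3 + omega) * hu - omega ^ 2 * hm

theorem inv_theta_eq : theta⁻¹ = -theta ^ 3 + theta ^ 2 + theta + 1 := by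
  have := theta_pos
  field_simp
  linear_combination quartic_theta

/-- The trace of `θⁿ` down to `ℚ`. -/
noncomputable def trSum (n : ℕ) : ℝ := theta ^ n + theta⁻¹ ^ n + 2 * (omega ^ n).re

theorem trSum_rec (n : ℕ) : trSum (n + 4) = trSum (n + 3) + trSum (n + 2) + trSum (n + 1) - trSum n := by
  have hw : omega ^ (n + 4) = omega ^ (n + 3) + omega ^ (n + 2) + omega ^ (n + 1) - omega ^ n := by
    linear_combination omega ^ n * quartic_omega
  unfold trSum
  rw [hw]
  simp only [Complex.sub_re, Complex.add_re]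
  linear_combination theta ^ n * quartic_theta + theta⁻¹ ^ n * quartic_inv

theorem trSum_int : ∀ n : ℕ, ∃ m : ℤ, trSum n = m := by
  intro n
  induction n using Nat.strong_induction_on with
  | _ n ih =>
    match n with
    | 0 => exact ⟨4, by simp [trSum]; norm_num⟩
    | 1 =>
      refine ⟨1, ?_⟩
      simp only [trSum, pow_one, omega_re, Int.cast_one]
      linear_combination theta_add_inv + uu_add_cc
    | 2 =>
      refine ⟨3, ?_⟩
      simp only [trSum, omega_eq, Complex.sub_re, Complex.re_ofReal_mul, omega_re, Complex.one_re]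
      push_cast
      have h : theta⁻¹ ^ 2 = uu * theta⁻¹ - 1 := by
        have := theta_pos
        field_simp
        linear_combination theta_eq
      rw [theta_eq, h]
      linear_combination uu * theta_add_inv + uu_sq + cc_sq + uu_add_cc
    | 3 =>
      refine ⟨7, ?_⟩
      have h : omega ^ 3 = ((4 * cc ^ 2 - 1 : ℝ) : ℂ) * omega - ((2 * cc : ℝ) : ℂ) := by
        push_cast
        have := omega_eq
        push_cast at this
        linear_combination (omega + 2 * (cc : ℂ)) * this
      simp only [trSum, h, Complex.sub_re, Complex.re_ofReal_mul, omega_re, Complex.ofReal_re]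
      push_cast
      have h2 : theta⁻¹ ^ 2 = uu * theta⁻¹ - 1 := by
        have := theta_pos
        field_simp
        linear_combination theta_eq
      have e1 : theta ^ 3 = (uu ^ 2 - 1) * theta - uu := by
        linear_combination (theta + uu) * theta_eq
      have e2 : theta⁻¹ ^ 3 = (uu ^ 2 - 1) * theta⁻¹ - uu := by
        linear_combination (theta⁻¹ + uu) * h2
      rw [e1, e2]
      linear_combination (uu ^ 2 - 1) * theta_add_inv + (uu + 1) * uu_sq + (2 * cc + 1) * cc_sq
        + uu_add_cc
    | k + 4 =>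
      obtain ⟨a, ha⟩ := ih (k + 3) (by omega)
      obtain ⟨b, hb⟩ := ih (k + 2) (by omega)
      obtain ⟨c, hc⟩ := ih (k + 1) (by omega)
      obtain ⟨d, hd⟩ := ih k (by omega)
      exact ⟨a + b + c - d, by rw [trSum_rec, ha, hb, hc, hd]; push_cast; ring⟩

end Vale.Agent.P105
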