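import Vale.Agent.P105.Trig
import Vale.Agent.P105.Theta

/-! Levels: multipliers `a` whose conjugates on the unit circle are tiny, and the orbit `a θˡ`. -/

namespace Vale.Agent.P105

open Real Finset

/-- A multiplier with its conjugate data and bounds. -/
structure Level where
  /-- the multiplier -/
  a : ℝ
  /-- its conjugate at `1/θ` -/
  eta : ℝ
  /-- its conjugate at `ω` -/
  z : ℂ
  /-- bound for `‖z‖` -/
  D : ℝ
  /-- bound for the cost -/
  B : ℝ
  /-- `a ≤ θ^L` -/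
  L : ℕ

/-- The orbit `a θˡ`. -/
noncomputable def Level.pos (v : Level) (l : ℤ) : ℝ := v.a * theta ^ l

/-- Size of a perturbation coming from a far window. -/
noncomputable def Level.small (v : Level) : ℝ := (theta⁻¹) ^ v.L + 2 * v.D

/-- The properties kept along the construction. -/
structure Good (v : Level) : Prop where
  trace : ∀ n : ℕ, ∃ m : ℤ,
    v.a * theta ^ n + v.eta * theta⁻¹ ^ n + 2 * (v.z * omega ^ n).re = m
  a_one : 1 ≤ v.a
  a_le : v.a ≤ theta ^ v.L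
  eta_le : |v.eta| ≤ 11 / 100
  z_le : ‖v.z‖ ≤ v.D
  D_pos : 0 < v.D
  D_le : v.D ≤ 1 / 5000
  L_D : (v.L : ℝ) ^ 4 * v.D ^ 3 ≤ 1
  L_ge : 46 ≤ v.L
  cos_ge : ∀ l : ℤ, 1 / 10 + 16 * (2 * (theta⁻¹) ^ v.L + 2 * v.D) ≤ |cz (v.pos l)|
  cost_le : ∀ lo N : ℤ, (N : ℝ) * v.D ^ 2 ≤ 2 → ∑ l ∈ Icc lo N, cost (v.pos l) ≤ v.B

theorem inv_theta_pos : 0 < theta⁻¹ := inv_pos.2 theta_pos

theorem inv_theta_le : theta⁻¹ ≤ 59 / 100 := by
  rw [inv_le_iff_one_le_mul₀ theta_pos]; linarith [theta_bounds.1]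

theorem inv_pow_small {n : ℕ} (hn : 20 ≤ n) : theta⁻¹ ^ n ≤ 1 / 10000 :=
  calc theta⁻¹ ^ n ≤ theta⁻¹ ^ 20 :=
        pow_le_pow_of_le_one inv_theta_pos.le (by linarith [inv_theta_le]) hn
    _ ≤ (59 / 100) ^ 20 := pow_le_pow_left₀ inv_theta_pos.le inv_theta_le _
    _ ≤ _ := by norm_num

theorem zpow_neg_nat (n : ℕ) : theta ^ (-(n : ℤ)) = theta⁻¹ ^ n := by
  rw [zpow_neg, zpow_natCast, inv_pow]

theorem sum_geom_int_le {q : ℝ} (hq : 0 ≤ q) (hq1 : q < 1) (s : Finset ℤ) (m : ℤ) :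
    ∑ l ∈ s.filter (fun l => l ≤ m), q ^ (m - l).toNat ≤ (1 - q)⁻¹ ∧
    ∑ l ∈ s.filter (fun l => m ≤ l), q ^ (l - m).toNat ≤ (1 - q)⁻¹ := by
  constructor <;> refine sum_geom_le hq hq1 _ _ ?_ <;> intro x hx y hy h <;>
    simp only [coe_filter, Set.mem_ofPred_eq] at hx hy h <;> omega

namespace Good

variable {v : Level} (g : Good v)

include g

theorem cz_ge (l : ℤ) : 1 / 10 ≤ |cz (v.pos l)| := by
  have := g.cos_ge l
  have := pow_pos inv_theta_pos v.L
  linarith [g.D_pos]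

theorem cz_ne (l : ℤ) : cz (v.pos l) ≠ 0 := fun h => by
  have := g.cz_ge l; rw [h, abs_zero] at this; linarith

theorem B_nonneg : 0 ≤ v.B := by
  have h := g.cost_le 1 0 (by simp)
  simpa using h

theorem a_pos : 0 < v.a := by linarith [g.a_one]

theorem small_le : v.small ≤ 1 / 1000 := by
  have := inv_pow_small (show 20 ≤ v.L by have := g.L_ge; omega)
  have := g.D_le
  unfold Level.small; linarith

theorem pos_nonneg (l : ℤ) : 0 ≤ v.pos l :=
  mul_nonneg g.a_pos.le (zpow_pos theta_pos l).le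

theorem pos_le (l : ℤ) : |v.pos l| ≤ theta ^ ((v.L : ℤ) + l) := by
  rw [abs_of_nonneg (g.pos_nonneg l), zpow_add₀ theta_pos.ne', zpow_natCast]
  exact mul_le_mul_of_nonneg_right g.a_le (zpow_pos theta_pos l).le

/-- Forward, the orbit is congruent mod 1 to a tiny number. -/
theorem forward (n : ℕ) : ∃ (m : ℤ) (e : ℝ),
    v.pos n = e + m ∧ |e| ≤ 11 / 100 * theta⁻¹ ^ n + 2 * v.D := by
  obtain ⟨m, hm⟩ := g.trace n
  refine ⟨m, -(v.eta * theta⁻¹ ^ n) - 2 * (v.z * omega ^ n).re, ?_, ?_⟩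
  · unfold Level.pos; rw [zpow_natCast]; linarith
  · have h1 : |v.eta * theta⁻¹ ^ n| ≤ 11 / 100 * theta⁻¹ ^ n := by
      rw [abs_mul, abs_of_nonneg (pow_nonneg inv_theta_pos.le n)]
      exact mul_le_mul_of_nonneg_right g.eta_le (pow_nonneg inv_theta_pos.le n)
    have h2 : |(v.z * omega ^ n).re| ≤ v.D := by
      refine (Complex.abs_re_le_norm _).trans ?_
      rw [norm_mul, norm_pow, norm_omega, one_pow, mul_one]
      exact g.z_le
    rw [abs_le] at h1 h2 ⊢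
    constructor <;> linarith

/-- Of two positions at distance `r ≥ 4 L`, one is tiny mod 1. -/
theorem pair {r : ℕ} (hr : 4 * v.L ≤ r) (l : ℤ) :
    ∃ (m : ℤ) (p : ℝ),
      ((v.pos l = p + m ∧ l ≤ -((r / 2 : ℕ) : ℤ) ∧ p = v.pos l) ∨
       (v.pos (l + r) = p + m ∧ -((r / 2 : ℕ) : ℤ) < l ∧
          |p| ≤ theta⁻¹ ^ (l + r).toNat + 2 * v.D)) ∧
      |p| ≤ v.small := by
  by_cases hl : l ≤ -((r / 2 : ℕ) : ℤ)
  · refine ⟨0, v.pos l, Or.inl ⟨by simp, hl, rfl⟩, ?_⟩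
    refine (g.pos_le l).trans ?_
    have h : theta ^ ((v.L : ℤ) + l) ≤ theta ^ (-(v.L : ℤ)) :=
      zpow_le_zpow_right₀ one_lt_theta.le (by omega)
    rw [zpow_neg_nat] at h
    unfold Level.small; linarith [g.D_pos]
  · obtain ⟨m, e, he, hb⟩ := g.forward (l + r).toNat
    have hn : ((l + r).toNat : ℤ) = l + r := by omega
    rw [hn] at he
    have hp := pow_nonneg inv_theta_pos.le (l + r).toNat
    refine ⟨m, e, Or.inr ⟨he, by omega, by linarith⟩, ?_⟩
    have h : theta⁻¹ ^ (l + r).toNat ≤ theta⁻¹ ^ v.L :=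
      pow_le_pow_of_le_one inv_theta_pos.le (by linarith [inv_theta_le]) (by omega)
    unfold Level.small; linarith

theorem tz_le (l : ℤ) : tz (v.pos l) ^ 2 ≤ 200 * cost (v.pos l) := by
  refine (tz_sq_le_cost (c := 1 / 10) (by norm_num) (g.cz_ge l)).trans (le_of_eq ?_)
  norm_num

/-- For positions at distance `r`, the product of tangents is small in `ℓ¹`. -/
theorem sum_tan_le {r : ℕ} (hr : 4 * v.L ≤ r) {lo N : ℤ} (hN : -(r : ℤ) ≤ N)
    (hD : ((N + r : ℤ) : ℝ) * v.D ^ 2 ≤ 2) {eps : ℝ} (he : 0 < eps) :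
    ∑ l ∈ Icc lo N, |tz (v.pos (l + r)) * tz (v.pos l)| ≤
      400 * eps * v.B + (300 * theta⁻¹ ^ (2 * v.L) + 400 * v.D ^ 2 * (N + r : ℤ)) / (4 * eps) := by
  have hD0 := g.D_pos
  set h : ℕ := r / 2
  set q : ℝ := theta⁻¹ ^ 2
  have hq0 : 0 ≤ q := by positivity
  have hq1 : q < 1 / 2 := by
    have := inv_theta_le; have := inv_theta_pos; nlinarith
  have hqinv : (1 - q)⁻¹ ≤ 2 := by
    rw [inv_le_iff_one_le_mul₀ (by linarith)]; linarith
  set A : ℤ → ℝ := fun l =>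
    if l ≤ -(h : ℤ) then 50 * theta⁻¹ ^ (2 * (h - v.L)) * q ^ (-(h : ℤ) - l).toNat
    else 100 * theta⁻¹ ^ (2 * (r - h)) * q ^ (l - (-(h : ℤ))).toNat + 400 * v.D ^ 2
  have hT : ∀ l : ℤ, |tz (v.pos (l + r)) * tz (v.pos l)| ≤
      eps * (tz (v.pos (l + r)) ^ 2 + tz (v.pos l) ^ 2) + A l / (4 * eps) := by
    intro l
    have am : ∀ x y : ℝ, |x * y| ≤ eps * x ^ 2 + y ^ 2 / (4 * eps) := by
      intro x y
      have h1 : 0 ≤ eps * (|x| - |y| / (2 * eps)) ^ 2 := by positivity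
      have h2 : eps * (|x| - |y| / (2 * eps)) ^ 2
          = eps * |x| ^ 2 - |x| * |y| + |y| ^ 2 / (4 * eps) := by field_simp; ring
      rw [h2, sq_abs, sq_abs] at h1
      rw [abs_mul]; linarith
    obtain ⟨m, p, hcase, hp⟩ := g.pair hr l
    have hp50 : |p| ≤ 1 / 50 := hp.trans (g.small_le.trans (by norm_num))
    rcases hcase with ⟨hx, hl, hpl⟩ | ⟨hx, hl, hb⟩
    · have hA : tz (v.pos l) ^ 2 ≤ A l := by
        simp only [A, if_pos (show l ≤ -(h : ℤ) from hl)]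
        rw [hx, tz_add_int]
        refine (tz_sq_small hp50).trans ?_
        rw [mul_assoc]
        refine mul_le_mul_of_nonneg_left ?_ (by norm_num)
        have hb := g.pos_le l
        rw [← hpl] at hb
        have e : theta ^ ((v.L : ℤ) + l) = theta⁻¹ ^ (h - v.L) * theta⁻¹ ^ (-(h : ℤ) - l).toNat := by
          rw [← pow_add, ← zpow_neg_nat]
          congr 1
          omega
        rw [e] at hb
        calc p ^ 2 = |p| ^ 2 := (sq_abs p).symm
          _ ≤ (theta⁻¹ ^ (h - v.L) * theta⁻¹ ^ (-(h : ℤ) - l).toNat) ^ 2 :=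
              pow_le_pow_left₀ (abs_nonneg p) hb 2
          _ = _ := by simp only [q, mul_pow, ← pow_mul]; ring_nf
      have := am (tz (v.pos (l + r))) (tz (v.pos l))
      have h0 : 0 ≤ eps * tz (v.pos l) ^ 2 := by positivity
      have : tz (v.pos l) ^ 2 / (4 * eps) ≤ A l / (4 * eps) := by gcongr
      linarith
    · have hA : tz (v.pos (l + r)) ^ 2 ≤ A l := by
        simp only [A, if_neg (not_le.2 (show -(h : ℤ) < l from hl))]
        rw [hx, tz_add_int]
        refine (tz_sq_small hp50).trans ?_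
        have e : theta⁻¹ ^ (l + r).toNat =
            theta⁻¹ ^ (r - h) * theta⁻¹ ^ (l - (-(h : ℤ))).toNat := by
          rw [← pow_add]; congr 1; omega
        have hq2 : (theta⁻¹ ^ (r - h) * theta⁻¹ ^ (l - (-(h : ℤ))).toNat) ^ 2
            = theta⁻¹ ^ (2 * (r - h)) * q ^ (l - (-(h : ℤ))).toNat := by
          simp only [q, mul_pow, ← pow_mul]; ring_nf
        rw [e] at hb
        have h2 := pow_le_pow_left₀ (abs_nonneg p) hb 2
        rw [sq_abs] at h2
        set w := theta⁻¹ ^ (r - h) * theta⁻¹ ^ (l - (-(h : ℤ))).toNat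
        nlinarith [sq_nonneg (w - 2 * v.D)]
      rw [mul_comm (tz (v.pos (l + r)))]
      have := am (tz (v.pos l)) (tz (v.pos (l + r)))
      have h0 : 0 ≤ eps * tz (v.pos (l + r)) ^ 2 := by positivity
      have : tz (v.pos (l + r)) ^ 2 / (4 * eps) ≤ A l / (4 * eps) := by gcongr
      linarith
  refine (sum_le_sum fun l _ => hT l).trans ?_
  rw [sum_add_distrib, ← mul_sum, ← sum_div, sum_add_distrib]
  have hs1 : ∑ l ∈ Icc lo N, tz (v.pos (l + r)) ^ 2 ≤ 200 * v.B := by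
    refine (sum_le_sum fun l _ => g.tz_le _).trans ?_
    rw [← mul_sum]
    refine mul_le_mul_of_nonneg_left ?_ (by norm_num)
    refine le_trans (le_of_eq ?_) (g.cost_le (lo + r) (N + r) hD)
    rw [← Finset.map_add_right_Icc, sum_map]
    rfl
  have hs2 : ∑ l ∈ Icc lo N, tz (v.pos l) ^ 2 ≤ 200 * v.B := by
    refine (sum_le_sum fun l _ => g.tz_le _).trans ?_
    rw [← mul_sum]
    refine mul_le_mul_of_nonneg_left (g.cost_le lo N ?_) (by norm_num)
    have h1 : (N : ℝ) ≤ ((N + r : ℤ) : ℝ) := by exact_mod_cast (show N ≤ N + r by omega)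
    exact (mul_le_mul_of_nonneg_right h1 (sq_nonneg v.D)).trans hD
  have hsA : ∑ l ∈ Icc lo N, A l ≤
      300 * theta⁻¹ ^ (2 * v.L) + 400 * v.D ^ 2 * (N + r : ℤ) := by
    rw [← sum_filter_add_sum_filter_not (Icc lo N) (fun l => l ≤ -(h : ℤ))]
    have hpw : ∀ n, v.L ≤ n → theta⁻¹ ^ (2 * n) ≤ theta⁻¹ ^ (2 * v.L) := fun n hn =>
      pow_le_pow_of_le_one inv_theta_pos.le (by linarith [inv_theta_le]) (by omega)
    have h1 : ∑ l ∈ (Icc lo N).filter (fun l => l ≤ -(h : ℤ)), A l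
        ≤ 100 * theta⁻¹ ^ (2 * v.L) := by
      rw [sum_congr rfl (g := fun l => 50 * theta⁻¹ ^ (2 * (h - v.L)) * q ^ (-(h : ℤ) - l).toNat)
        (fun l hl => by simp only [A, if_pos (mem_filter.1 hl).2]), ← mul_sum]
      have := ((sum_geom_int_le hq0 (by linarith) (Icc lo N) (-(h : ℤ))).1).trans hqinv
      have hp := hpw (h - v.L) (by omega)
      have : (0 : ℝ) ≤ theta⁻¹ ^ (2 * (h - v.L)) := pow_nonneg inv_theta_pos.le _
      nlinarith
    have h2 : ∑ l ∈ (Icc lo N).filter (fun l => ¬ l ≤ -(h : ℤ)), A l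
        ≤ 200 * theta⁻¹ ^ (2 * v.L) + 400 * v.D ^ 2 * (N + r : ℤ) := by
      rw [sum_congr rfl (g := fun l =>
          100 * theta⁻¹ ^ (2 * (r - h)) * q ^ (l - (-(h : ℤ))).toNat + 400 * v.D ^ 2)
        (fun l hl => by simp only [A, if_neg (mem_filter.1 hl).2]), sum_add_distrib, ← mul_sum,
        sum_const, nsmul_eq_mul]
      have hsub : (Icc lo N).filter (fun l => ¬ l ≤ -(h : ℤ)) ⊆
          (Icc lo N).filter (fun l => -(h : ℤ) ≤ l) := by
        intro l; simp only [mem_filter, mem_Icc]; omega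
      have hg := (sum_le_sum_of_subset_of_nonneg hsub
        (f := fun l => q ^ (l - (-(h : ℤ))).toNat) (fun _ _ _ => pow_nonneg hq0 _)).trans
        (((sum_geom_int_le hq0 (by linarith) (Icc lo N) (-(h : ℤ))).2).trans hqinv)
      have hp := hpw (r - h) (by omega)
      have hp0 : (0 : ℝ) ≤ theta⁻¹ ^ (2 * (r - h)) := pow_nonneg inv_theta_pos.le _
      have hcard : (((Icc lo N).filter (fun l => ¬ l ≤ -(h : ℤ))).card : ℝ) ≤ (N + r : ℤ) := by
        have hs : (Icc lo N).filter (fun l => ¬ l ≤ -(h : ℤ)) ⊆ Icc (-(h : ℤ) + 1) N := by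
          intro l; simp only [mem_filter, mem_Icc]; omega
        have := card_le_card hs
        rw [Int.card_Icc] at this
        exact_mod_cast (show ((((Icc lo N).filter (fun l => ¬ l ≤ -(h : ℤ))).card : ℤ)) ≤ N + r by
          omega)
      have := mul_le_mul_of_nonneg_right hcard (show 0 ≤ 400 * v.D ^ 2 by positivity)
      nlinarith
    linarith
  have : (∑ l ∈ Icc lo N, A l) / (4 * eps) ≤
      (300 * theta⁻¹ ^ (2 * v.L) + 400 * v.D ^ 2 * (N + r : ℤ)) / (4 * eps) := by gcongr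
  nlinarith

end Good

end Vale.Agent.P105
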