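import Vale.Agent.P105.Conv
import Vale.Agent.P105.Level

/-! Correlations of `cos (2 π a θʲ X)` under the Bernoulli convolution of `1/θ` and under Lebesgue
measure on `[-3, 3]`. -/

namespace Vale.Agent.P105

open Real MeasureTheory Filter Topology Finset

/-- The Bernoulli convolution of `1/θ`. -/
noncomputable def nu : Measure ℝ := bernoulliConv theta⁻¹

instance : IsProbabilityMeasure nu :=
  isProbabilityMeasure_bernoulliConv inv_theta_pos.le (by linarith [inv_theta_le])

/-- The `j`-th wave of a level. -/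
noncomputable def wave (v : Level) (j : ℤ) (x : ℝ) : ℝ := cz (v.pos j * x)

/-- The Fourier coefficient of `ν` at the `j`-th frequency. -/
noncomputable def coef (v : Level) (j : ℤ) : ℝ := ∫ x, wave v j x ∂nu

theorem continuous_cz : Continuous cz := by unfold cz; fun_prop

theorem continuous_wave (v : Level) (j : ℤ) : Continuous (wave v j) :=
  continuous_cz.comp (by fun_prop)

theorem integral_cz_tendsto (s : ℝ) :
    Tendsto (fun K => ∏ n ∈ range K, cz (s * theta⁻¹ ^ n)) atTop (𝓝 (∫ x, cz (s * x) ∂nu)) := by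
  have h := tendsto_prod_cos (lam := theta⁻¹) inv_theta_pos.le (by linarith [inv_theta_le])
    (2 * π * s)
  unfold cz nu
  simp only [← mul_assoc]
  exact h

theorem pos_sub_nat (v : Level) (j : ℤ) (n : ℕ) :
    v.pos j * theta⁻¹ ^ n = v.pos (j - n) := by
  unfold Level.pos
  rw [mul_assoc, ← zpow_neg_nat, ← zpow_add₀ theta_pos.ne', sub_eq_add_neg]

theorem coef_tendsto (v : Level) (j : ℤ) :
    Tendsto (fun K => ∏ n ∈ range K, cz (v.pos (j - (n : ℕ)))) atTop (𝓝 (coef v j)) := by
  have h := integral_cz_tendsto (v.pos j)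
  simp only [pos_sub_nat] at h
  exact h

theorem sum_range_sub (f : ℤ → ℝ) (j : ℤ) (K : ℕ) :
    ∑ n ∈ range K, f (j - (n : ℕ)) = ∑ l ∈ Icc (j - (K : ℤ) + 1) j, f l := by
  refine sum_nbij' (fun n : ℕ => j - (n : ℤ)) (fun l : ℤ => (j - l).toNat) ?_ ?_ ?_ ?_ ?_ <;>
    intro a ha <;> simp only [mem_range, mem_Icc] at ha ⊢ <;>
    omega

variable {v : Level}

theorem coef_lower (g : Good v) {j : ℤ} (hj : (j : ℝ) * v.D ^ 2 ≤ 2) :
    Real.exp (-v.B) ≤ |coef v j| := by
  refine ge_of_tendsto' (coef_tendsto v j).abs fun K => ?_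
  rw [abs_prod]
  have h : ∀ n ∈ range K, |cz (v.pos (j - (n : ℕ)))| = Real.exp (-cost (v.pos (j - (n : ℕ)))) := by
    intro n _
    rw [cost, neg_neg, Real.exp_log (abs_pos.2 (g.cz_ne _))]
  rw [prod_congr rfl h, ← Real.exp_sum, sum_neg_distrib,
    sum_range_sub (fun l => cost (v.pos l))]
  gcongr
  exact g.cost_le _ _ hj

theorem coef_ne (g : Good v) {j : ℤ} (hj : (j : ℝ) * v.D ^ 2 ≤ 2) : coef v j ≠ 0 := by
  intro h
  have := coef_lower g hj
  rw [h, abs_zero] at this
  linarith [Real.exp_pos (-v.B)]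

theorem wave_mul (v : Level) (j k : ℤ) (x : ℝ) :
    wave v j x * wave v k x
      = (cz ((v.pos j + v.pos k) * x) + cz ((v.pos j - v.pos k) * x)) / 2 := by
  unfold wave cz
  rw [show 2 * π * ((v.pos j + v.pos k) * x) = 2 * π * (v.pos j * x) + 2 * π * (v.pos k * x) by ring,
    show 2 * π * ((v.pos j - v.pos k) * x) = 2 * π * (v.pos j * x) - 2 * π * (v.pos k * x) by ring,
    Real.cos_add, Real.cos_sub]
  ring

theorem integrable_cz_mul {μ : Measure ℝ} [IsFiniteMeasure μ] (s : ℝ) :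
    Integrable (fun x => cz (s * x)) μ :=
  Integrable.of_bound (continuous_cz.comp (by fun_prop)).aestronglyMeasurable 1
    (ae_of_all _ fun x => by rw [Real.norm_eq_abs]; exact abs_cz_le_one _)

theorem integrable_wave_mul {μ : Measure ℝ} [IsFiniteMeasure μ] (v : Level) (j k : ℤ) :
    Integrable (fun x => wave v j x * wave v k x) μ := by
  simp only [wave_mul]
  exact ((integrable_cz_mul _).add (integrable_cz_mul _)).div_const 2

theorem integral_wave_mul {μ : Measure ℝ} [IsFiniteMeasure μ] (v : Level) (j k : ℤ) :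
    ∫ x, wave v j x * wave v k x ∂μ
      = (∫ x, cz ((v.pos j + v.pos k) * x) ∂μ + ∫ x, cz ((v.pos j - v.pos k) * x) ∂μ) / 2 := by
  simp only [wave_mul]
  rw [integral_div, integral_add (integrable_cz_mul _) (integrable_cz_mul _)]

/-- Waves at distance at least `4 L` are almost uncorrelated under `ν`. -/
theorem corr_far (g : Good v) {r : ℕ} (hr : 4 * v.L ≤ r) (k : ℕ)
    (hD : ((k + r : ℕ) : ℝ) * v.D ^ 2 ≤ 2) {eps : ℝ} (he : 0 < eps) :
    |∫ x, wave v (k + r : ℕ) x * wave v k x ∂nu - coef v (k + r : ℕ) * coef v k| ≤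
      |coef v (k + r : ℕ) * coef v k| *
        (Real.exp (400 * eps * v.B + (300 * theta⁻¹ ^ (2 * v.L) + 400 * v.D ^ 2 * (k + r : ℕ)) /
          (4 * eps)) - 1) := by
  set S := 400 * eps * v.B + (300 * theta⁻¹ ^ (2 * v.L) + 400 * v.D ^ 2 * (k + r : ℕ)) / (4 * eps)
  set j : ℤ := ((k + r : ℕ) : ℤ) with hj
  have hA := coef_tendsto v j
  have hB := coef_tendsto v (k : ℤ)
  have hP := integral_cz_tendsto (v.pos j + v.pos k)
  have hM := integral_cz_tendsto (v.pos j - v.pos k)
  simp only [add_mul, sub_mul, pos_sub_nat] at hP hM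
  rw [integral_wave_mul]
  simp only [add_mul, sub_mul]
  refine le_of_tendsto_of_tendsto' ((((hP.add hM).div_const 2).sub (hA.mul hB)).abs)
    ((hA.mul hB).abs.mul_const (Real.exp S - 1)) fun K => ?_
  set t : ℕ → ℝ := fun n => tz (v.pos (j - (n : ℕ))) * tz (v.pos ((k : ℤ) - (n : ℕ)))
  have eP : ∏ n ∈ range K, cz (v.pos (j - (n : ℕ)) + v.pos ((k : ℤ) - (n : ℕ)))
      = (∏ n ∈ range K, cz (v.pos (j - (n : ℕ)))) * (∏ n ∈ range K, cz (v.pos ((k : ℤ) - (n : ℕ))))
        * ∏ n ∈ range K, (1 + -t n) := by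
    rw [← prod_mul_distrib, ← prod_mul_distrib]
    exact prod_congr rfl fun n _ => by rw [cz_add (g.cz_ne _) (g.cz_ne _)]; ring
  have eM : ∏ n ∈ range K, cz (v.pos (j - (n : ℕ)) - v.pos ((k : ℤ) - (n : ℕ)))
      = (∏ n ∈ range K, cz (v.pos (j - (n : ℕ)))) * (∏ n ∈ range K, cz (v.pos ((k : ℤ) - (n : ℕ))))
        * ∏ n ∈ range K, (1 + t n) := by
    rw [← prod_mul_distrib, ← prod_mul_distrib]
    exact prod_congr rfl fun n _ => by rw [cz_sub (g.cz_ne _) (g.cz_ne _)]
  rw [eP, eM]
  have hS : ∑ n ∈ range K, |t n| ≤ S := by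
    have e : ∀ n : ℕ, |t n| = (fun l : ℤ => |tz (v.pos (l + r)) * tz (v.pos l)|) ((k : ℤ) - (n : ℕ)) := by
      intro n
      simp only [t, hj]
      congr 4
      push_cast; ring
    rw [sum_congr rfl fun n _ => e n, sum_range_sub (fun l => |tz (v.pos (l + r)) * tz (v.pos l)|)]
    refine (g.sum_tan_le hr (by omega) ?_ he).trans (le_of_eq ?_)
    · push_cast at hD ⊢; linarith
    · simp only [S]; push_cast; ring
  have h1 : |∏ n ∈ range K, (1 + t n) - 1| ≤ Real.exp S - 1 :=
    (abs_prod_one_add_sub_one_le _ t).trans (by gcongr)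
  have h2 : |∏ n ∈ range K, (1 + -t n) - 1| ≤ Real.exp S - 1 := by
    refine (abs_prod_one_add_sub_one_le _ fun n => -t n).trans ?_
    simp only [abs_neg]
    gcongr
  set P := (∏ n ∈ range K, cz (v.pos (j - (n : ℕ)))) * ∏ n ∈ range K, cz (v.pos ((k : ℤ) - (n : ℕ)))
  set U := ∏ n ∈ range K, (1 + -t n)
  set V := ∏ n ∈ range K, (1 + t n)
  rw [show (P * U + P * V) / 2 - P = P * (((U - 1) + (V - 1)) / 2) by ring, abs_mul]
  refine mul_le_mul_of_nonneg_left ?_ (abs_nonneg _)
  rw [abs_div, abs_two, div_le_iff₀ two_pos]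
  have := abs_add_le (U - 1) (V - 1)
  linarith

/-- The window `[-3, 3]` with Lebesgue measure. -/
noncomputable def lebWindow : Measure ℝ := volume.restrict (Set.Icc (-3) 3)

instance : IsFiniteMeasure lebWindow := by
  unfold lebWindow
  exact isFiniteMeasure_restrict.2 (by rw [Real.volume_Icc]; exact ENNReal.ofReal_ne_top)

theorem abs_integral_cz_lebWindow {s : ℝ} (hs : 0 < s) :
    |∫ x, cz (s * x) ∂lebWindow| ≤ 1 / (3 * s) := by
  unfold lebWindow
  rw [integral_Icc_eq_integral_Ioc, ← intervalIntegral.integral_of_le (by norm_num : (-3 : ℝ) ≤ 3)]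
  unfold cz
  simp only [← mul_assoc]
  rw [intervalIntegral.integral_comp_mul_left (fun y => Real.cos y) (by positivity : 2 * π * s ≠ 0),
    integral_cos, smul_eq_mul, abs_mul, abs_inv, abs_of_pos (by positivity : 0 < 2 * π * s)]
  have h : |Real.sin (2 * π * s * 3) - Real.sin (2 * π * s * -3)| ≤ 2 := by
    refine (abs_sub _ _).trans ?_
    linarith [Real.abs_sin_le_one (2 * π * s * 3), Real.abs_sin_le_one (2 * π * s * -3)]
  refine (mul_le_mul_of_nonneg_left h (by positivity)).trans ?_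
  rw [inv_mul_eq_div, div_le_div_iff₀ (by positivity) (by positivity)]
  nlinarith [Real.pi_gt_three]

theorem corr_leb_lt (g : Good v) {j k : ℕ} (hkj : k < j) :
    |∫ x, wave v j x * wave v k x ∂lebWindow| ≤ 6 * theta⁻¹ ^ (j - k) := by
  rw [integral_wave_mul]
  have hth := one_lt_theta
  have hj : (1 : ℝ) * theta ^ j ≤ v.pos j := by
    unfold Level.pos; rw [zpow_natCast]
    exact mul_le_mul_of_nonneg_right g.a_one (by positivity)
  have hk0 := g.pos_nonneg k
  have hkle : v.pos k ≤ 59 / 100 * v.pos j := by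
    have e : v.pos k = v.pos j * theta⁻¹ ^ (j - k) := by
      rw [pos_sub_nat]; congr 1; omega
    rw [e, mul_comm]
    refine mul_le_mul_of_nonneg_right ?_ (g.pos_nonneg _)
    calc theta⁻¹ ^ (j - k) ≤ theta⁻¹ ^ 1 :=
          pow_le_pow_of_le_one inv_theta_pos.le (by linarith [inv_theta_le]) (by omega)
      _ ≤ _ := by rw [pow_one]; exact inv_theta_le
  have hpw : 0 < theta ^ j := pow_pos theta_pos j
  have hbound : ∀ s : ℝ, 41 / 100 * v.pos j ≤ s →
      |∫ x, cz (s * x) ∂lebWindow| ≤ 6 * theta⁻¹ ^ (j - k) := by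
    intro s hs
    refine (abs_integral_cz_lebWindow (by linarith)).trans ?_
    calc 1 / (3 * s) ≤ 1 / theta ^ j := by
          rw [div_le_div_iff₀ (by linarith) hpw]; linarith
      _ = theta⁻¹ ^ j := by rw [inv_pow, one_div]
      _ ≤ theta⁻¹ ^ (j - k) :=
          pow_le_pow_of_le_one inv_theta_pos.le (by linarith [inv_theta_le]) (by omega)
      _ ≤ _ := by linarith [pow_pos inv_theta_pos (j - k)]
  have h1 := hbound (v.pos j + v.pos k) (by linarith)
  have h2 := hbound (v.pos j - v.pos k) (by linarith)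
  rw [abs_div, abs_two, div_le_iff₀ two_pos]
  refine (abs_add_le _ _).trans ?_
  linarith

theorem corr_leb (g : Good v) (j k : ℕ) :
    |∫ x, wave v j x * wave v k x ∂lebWindow| ≤ 6 * theta⁻¹ ^ ((j - k) + (k - j)) := by
  rcases lt_trichotomy k j with h | h | h
  · rw [Nat.sub_eq_zero_of_le h.le, add_zero]; exact corr_leb_lt g h
  · subst h
    simp only [Nat.sub_self, add_zero, pow_zero, mul_one]
    have hb : ∀ x, ‖wave v k x * wave v k x‖ ≤ 1 := fun x => by
      rw [Real.norm_eq_abs, abs_mul]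
      exact mul_le_one₀ (abs_cz_le_one _) (abs_nonneg _) (abs_cz_le_one _)
    have h := norm_integral_le_of_norm_le_const (μ := lebWindow) (ae_of_all _ hb)
    rw [Real.norm_eq_abs] at h
    refine h.trans (le_of_eq ?_)
    simp [lebWindow, measureReal_def, Real.volume_Icc]
    norm_num
  · rw [Nat.sub_eq_zero_of_le h.le, zero_add]
    simp only [mul_comm (wave v j _)]
    exact corr_leb_lt g h

end Vale.Agent.P105
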