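import Mathlib

/-! Definitions for problem P105: Bernoulli convolutions and Pisot numbers. -/

namespace Vale.Agent.P105

open MeasureTheory

/-- The fair coin on `Bool`. -/
noncomputable def fairCoin : Measure Bool :=
  (2⁻¹ : ENNReal) • Measure.dirac true + (2⁻¹ : ENNReal) • Measure.dirac false

/-- The law of an iid fair sequence of signs. -/
noncomputable def fairSeq : Measure (ℕ → Bool) :=
  Measure.infinitePi fun _ => fairCoin

/-- The sign attached to a Boolean. -/
def boolSign (b : Bool) : ℝ := if b then 1 else -1

/-- The random series `∑ εₙ λⁿ`. -/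
noncomputable def randomSeries (lam : ℝ) (w : ℕ → Bool) : ℝ :=
  ∑' n, boolSign (w n) * lam ^ n

/-- The Bernoulli convolution: the law of `∑ εₙ λⁿ` for iid fair signs. -/
noncomputable def bernoulliConv (lam : ℝ) : Measure ℝ :=
  fairSeq.map (randomSeries lam)

/-- A Pisot number: a real algebraic integer `> 1` whose other Galois conjugates (the other complex
roots of its minimal polynomial over `ℚ`) all have modulus `< 1`. -/
def IsPisot (b : ℝ) : Prop :=
  1 < b ∧ IsIntegral ℤ b ∧
    ∀ z : ℂ, Polynomial.aeval z (minpoly ℚ b) = 0 → z ≠ (b : ℂ) → ‖z‖ < 1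

end Vale.Agent.P105
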