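import Vale.Agent.P105.Theta

/-! `θ` is not a Pisot number: `ω` is a conjugate of modulus `1`. -/

namespace Vale.Agent.P105

open Real Polynomial

theorem irrational_sqrt13 : Irrational √13 := by
  have := Nat.Prime.irrational_sqrt (p := 13) (by norm_num)
  simpa using this

theorem rat_sqrt13_zero {p r : ℚ} (h : (p : ℝ) + r * √13 = 0) : p = 0 ∧ r = 0 := by
  have hr : r = 0 := by
    by_contra hr
    refine irrational_sqrt13 ⟨-p / r, ?_⟩
    have : (r : ℝ) ≠ 0 := by exact_mod_cast hr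
    push_cast
    field_simp
    linarith
  refine ⟨?_, hr⟩
  rw [hr] at h
  simpa using h

theorem linIndep_theta {c0 c1 c2 c3 : ℚ}
    (h : (c0 : ℝ) + c1 * theta + c2 * theta ^ 2 + c3 * theta ^ 3 = 0) :
    c0 = 0 ∧ c1 = 0 ∧ c2 = 0 ∧ c3 = 0 := by
  set a1 : ℚ := c0 - c2 - c3 / 2
  set a2 : ℚ := -c3 / 2
  set b1 : ℚ := c1 + c2 / 2 + 5 * c3 / 2
  set b2 : ℚ := c2 / 2 + c3 / 2
  set A : ℝ := (a1 : ℝ) + a2 * √13
  set B : ℝ := (b1 : ℝ) + b2 * √13
  have hu : uu = (1 + √13) / 2 := rfl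
  have hAB : A + B * theta = 0 := by
    simp only [A, B, a1, a2, b1, b2]
    push_cast
    linear_combination h - ((c2 : ℝ) + c3 * (theta + uu)) * theta_eq - c3 * theta * uu_sq
      - ((c2 : ℝ) * theta - c3 + c3 * theta) * hu
  have hQ : A ^ 2 + uu * A * B + B ^ 2 = 0 := by
    linear_combination (A - B * theta + uu * B) * hAB + B ^ 2 * theta_eq
  set M : ℚ := a1 * b1 + 13 * a2 * b2
  set N : ℚ := a1 * b2 + a2 * b1
  set P : ℚ := a1 ^ 2 + 13 * a2 ^ 2 + b1 ^ 2 + 13 * b2 ^ 2 + (M + 13 * N) / 2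
  set R : ℚ := 2 * a1 * a2 + 2 * b1 * b2 + (M + N) / 2
  have hPR : (P : ℝ) + R * √13 = 0 := by
    rw [← hQ, hu]
    simp only [A, B, P, R, M, N]
    push_cast
    linear_combination -((a2 : ℝ) ^ 2 + (b2 : ℝ) ^ 2 + ((a1 : ℝ) * b2 + a2 * b1 + a2 * b2) / 2
      + √13 * a2 * b2 / 2) * sqrt13_sq
  obtain ⟨hP, hR⟩ := rat_sqrt13_zero hPR
  set A' : ℝ := (a1 : ℝ) - a2 * √13
  set B' : ℝ := (b1 : ℝ) - b2 * √13
  have hconj : A' ^ 2 + 2 * cc * A' * B' + B' ^ 2 = 0 := by
    have e : (P : ℝ) - R * √13 = 0 := by rw [hP, hR]; simp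
    rw [← e]
    simp only [A', B', P, R, M, N, cc]
    push_cast
    linear_combination ((a2 : ℝ) ^ 2 + (b2 : ℝ) ^ 2 + ((a1 : ℝ) * b2 + a2 * b1 + a2 * b2) / 2
      - √13 * a2 * b2 / 2) * sqrt13_sq
  have hc : 0 < 1 - cc ^ 2 := by nlinarith [abs_cc_lt.1, abs_cc_lt.2]
  have hs : (A' + cc * B') ^ 2 + (1 - cc ^ 2) * B' ^ 2 = 0 := by linear_combination hconj
  have h1 : (1 - cc ^ 2) * B' ^ 2 = 0 := by
    nlinarith [sq_nonneg (A' + cc * B'), sq_nonneg B']
  have hB' : B' = 0 := by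
    rcases mul_eq_zero.1 h1 with h | h
    · linarith
    · exact pow_eq_zero_iff (n := 2) (by norm_num) |>.1 h
  have hA' : A' = 0 := by
    rw [hB'] at hconj
    exact pow_eq_zero_iff (n := 2) (by norm_num) |>.1 (by linarith)
  obtain ⟨ha1, ha2⟩ := rat_sqrt13_zero (p := a1) (r := -a2) (by
    simp only [A'] at hA'; push_cast; linarith)
  obtain ⟨hb1, hb2⟩ := rat_sqrt13_zero (p := b1) (r := -b2) (by
    simp only [B'] at hB'; push_cast; linarith)
  simp only [a1, a2, b1, b2] at ha1 ha2 hb1 hb2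
  refine ⟨?_, ?_, ?_, ?_⟩ <;> linarith

/-- `x⁴ - x³ - x² - x + 1`. -/
noncomputable def salemPoly : ℚ[X] := X ^ 4 - X ^ 3 - X ^ 2 - X + 1

theorem salemPoly_monic : salemPoly.Monic := by
  unfold salemPoly; monicity!

theorem aeval_omega_of_theta {P : ℚ[X]} (h : aeval theta P = 0) : aeval omega P = 0 := by
  have hQ : aeval theta salemPoly = 0 := by simpa [salemPoly] using quartic_theta
  have hQw : aeval omega salemPoly = 0 := by simpa [salemPoly] using quartic_omega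
  have hdeg : salemPoly.natDegree = 4 := by unfold salemPoly; compute_degree!
  set r := P %ₘ salemPoly
  have hr : aeval theta r = 0 := by rw [aeval_modByMonic_eq_self_of_root hQ, h]
  have hrdeg : r.natDegree < 4 := by
    rw [← hdeg]
    exact natDegree_modByMonic_lt P salemPoly_monic (fun h1 => by rw [h1] at hdeg; simp at hdeg)
  rw [aeval_eq_sum_range' hrdeg] at hr
  simp only [Finset.sum_range_succ, Finset.sum_range_zero, zero_add, Algebra.smul_def, pow_zero,
    mul_one, pow_one, eq_ratCast] at hr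
  obtain ⟨h0, h1, h2, h3⟩ := linIndep_theta hr
  rw [← aeval_modByMonic_eq_self_of_root hQw]
  change aeval omega r = 0
  rw [aeval_eq_sum_range' hrdeg]
  simp [Finset.sum_range_succ, h0, h1, h2, h3]

theorem theta_not_isPisot : ¬ IsPisot theta := by
  rintro ⟨-, -, hz⟩
  have hne : omega ≠ (theta : ℂ) := by
    intro h
    have := norm_omega
    rw [h, Complex.norm_real, Real.norm_eq_abs, abs_of_pos theta_pos] at this
    linarith [one_lt_theta]
  have := hz omega (aeval_omega_of_theta (minpoly.aeval ℚ theta)) hne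
  linarith [norm_omega]

end Vale.Agent.P105
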