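import Vale.Agent.P105.Step
import Vale.Agent.P105.Base
import Vale.Agent.P105.Corr

/-! The test functions, and the singularity of the Bernoulli convolution of `1/θ`. -/

namespace Vale.Agent.P105

open Real MeasureTheory Filter Topology Finset

variable {v : Level}

/-- The average of the waves, normalised by their coefficients. -/
noncomputable def test (v : Level) (J : ℕ) (x : ℝ) : ℝ :=
  (∑ j ∈ range J, wave v j x / coef v j) / J

theorem continuous_test (v : Level) (J : ℕ) : Continuous (test v J) := by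
  unfold test
  exact (continuous_finsetSum _ fun (j : ℕ) _ => (continuous_wave v (j : ℤ)).div_const (coef v j)).div_const _

theorem test_sq (v : Level) (J : ℕ) (x : ℝ) :
    test v J x ^ 2 = (∑ j ∈ range J, ∑ k ∈ range J,
      wave v j x * wave v k x / (coef v j * coef v k)) / (J : ℝ) ^ 2 := by
  unfold test
  rw [div_pow, sq (∑ j ∈ range J, wave v j x / coef v j), sum_mul_sum]
  congr 1
  exact sum_congr rfl fun j _ => sum_congr rfl fun k _ => by rw [div_mul_div_comm]

theorem integral_test_sq {μ : Measure ℝ} [IsFiniteMeasure μ] (v : Level) (J : ℕ) :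
    ∫ x, test v J x ^ 2 ∂μ = (∑ j ∈ range J, ∑ k ∈ range J,
      (∫ x, wave v j x * wave v k x ∂μ) / (coef v j * coef v k)) / (J : ℝ) ^ 2 := by
  simp only [test_sq]
  rw [integral_div]
  congr 1
  rw [integral_finsetSum _ fun j _ =>
    integrable_finsetSum _ fun k _ => (integrable_wave_mul v _ _).div_const _]
  refine sum_congr rfl fun j _ => ?_
  rw [integral_finsetSum _ fun k _ => (integrable_wave_mul v _ _).div_const _]
  exact sum_congr rfl fun k _ => integral_div _ _

theorem budget {J j : ℕ} (hJ : (J : ℝ) * v.D ^ 2 ≤ 2) (hj : j < J) :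
    (((j : ℕ) : ℤ) : ℝ) * v.D ^ 2 ≤ 2 := by
  refine le_trans ?_ hJ
  gcongr
  exact_mod_cast hj.le

theorem inv_coef_mul_le (g : Good v) {J j k : ℕ} (hJ : (J : ℝ) * v.D ^ 2 ≤ 2) (hj : j < J)
    (hk : k < J) : |coef v j * coef v k|⁻¹ ≤ Real.exp (2 * v.B) := by
  have h1 := coef_lower g (budget hJ hj)
  have h2 := coef_lower g (budget hJ hk)
  have h := mul_le_mul h1 h2 (Real.exp_pos _).le (abs_nonneg _)
  rw [← Real.exp_add, ← abs_mul] at h
  refine (inv_anti₀ (Real.exp_pos _) h).trans (le_of_eq ?_)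
  rw [← Real.exp_neg]; congr 1; ring

/-- The bound for the exponent in the covariance estimate. -/
noncomputable def covBound (v : Level) (J : ℕ) (eps : ℝ) : ℝ :=
  400 * eps * v.B + (300 * theta⁻¹ ^ (2 * v.L) + 400 * v.D ^ 2 * J) / (4 * eps)

theorem ratio_far (g : Good v) {J j k : ℕ} (hJ : (J : ℝ) * v.D ^ 2 ≤ 2) (hj : j < J) (hk : k < J)
    {eps : ℝ} (he : 0 < eps) (hfar : k + 4 * v.L ≤ j) :
    |(∫ x, wave v j x * wave v k x ∂nu) / (coef v j * coef v k) - 1|
      ≤ Real.exp (covBound v J eps) - 1 := by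
  obtain ⟨r, rfl⟩ : ∃ r, j = k + r := ⟨j - k, by omega⟩
  have hb : ((k + r : ℕ) : ℝ) * v.D ^ 2 ≤ 2 := by
    have := budget (v := v) hJ hj
    exact_mod_cast this
  have h := corr_far g (r := r) (by omega) k hb he
  have hne : coef v (k + r : ℕ) * coef v k ≠ 0 :=
    mul_ne_zero (coef_ne g (budget hJ hj)) (coef_ne g (budget hJ hk))
  rw [div_sub_one hne, abs_div, div_le_iff₀ (abs_pos.2 hne), mul_comm (Real.exp _ - 1)]
  refine h.trans ?_
  unfold covBound
  have hle : ((k + r : ℕ) : ℝ) ≤ J := by exact_mod_cast hj.le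
  gcongr

theorem ratio_any (g : Good v) {J j k : ℕ} (hJ : (J : ℝ) * v.D ^ 2 ≤ 2) (hj : j < J) (hk : k < J) :
    |(∫ x, wave v j x * wave v k x ∂nu) / (coef v j * coef v k) - 1|
      ≤ 2 * Real.exp (2 * v.B) := by
  have hb : |∫ x, wave v j x * wave v k x ∂nu| ≤ 1 := by
    have h := norm_integral_le_of_norm_le_const (μ := nu) (C := (1 : ℝ))
      (f := fun x => wave v j x * wave v k x) (ae_of_all _ fun x => by
        rw [Real.norm_eq_abs, abs_mul]
        exact mul_le_one₀ (abs_cz_le_one _) (abs_nonneg _) (abs_cz_le_one _))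
    simpa using h
  have hinv := inv_coef_mul_le g hJ hj hk
  refine (abs_sub _ _).trans ?_
  rw [abs_one, abs_div, div_eq_mul_inv]
  have h1 : (1 : ℝ) ≤ Real.exp (2 * v.B) := Real.one_le_exp (by linarith [g.B_nonneg])
  have := mul_le_mul hb hinv (by positivity) zero_le_one
  linarith

/-- Under `ν` the test function is close to `1`. -/
theorem variance_le (g : Good v) {J : ℕ} (hJ1 : 0 < J) (hJ : (J : ℝ) * v.D ^ 2 ≤ 2) {eps : ℝ}
    (he : 0 < eps) :
    ∫ x, (test v J x - 1) ^ 2 ∂nu ≤
      (Real.exp (covBound v J eps) - 1) + 16 * Real.exp (2 * v.B) * v.L / J := by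
  have hJ0 : (0 : ℝ) < J := by exact_mod_cast hJ1
  have hint : ∀ j : ℕ, Integrable (fun x => wave v j x / coef v j) nu := fun j =>
    (integrable_cz_mul (v.pos j)).div_const _
  have hmean : ∫ x, test v J x ∂nu = 1 := by
    unfold test
    rw [integral_div, integral_finsetSum _ fun j _ => hint j]
    rw [sum_congr rfl (g := fun _ => (1 : ℝ))]
    · simp [hJ0.ne']
    · intro j hj
      rw [integral_div]
      exact div_self (coef_ne g (budget hJ (mem_range.1 hj)))
  have hI1 : Integrable (test v J) nu := (integrable_finsetSum _ fun j _ => hint j).div_const _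
  have hI2 : Integrable (fun x => test v J x ^ 2) nu := by
    simp only [test_sq]
    exact (integrable_finsetSum _ fun j _ =>
      integrable_finsetSum _ fun k _ => (integrable_wave_mul v _ _).div_const _).div_const _
  have e : ∫ x, (test v J x - 1) ^ 2 ∂nu = ∫ x, test v J x ^ 2 ∂nu - 1 := by
    have : ∀ x, (test v J x - 1) ^ 2 = test v J x ^ 2 - (2 * test v J x - 1) := fun x => by ring
    simp only [this]
    have hI3 : Integrable (fun x => 2 * test v J x - 1) nu :=
      (hI1.const_mul 2).sub (integrable_const _)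
    rw [integral_sub hI2 hI3, integral_sub (hI1.const_mul 2) (integrable_const _), integral_const_mul,
      hmean]
    simp
    norm_num
  rw [e, integral_test_sq]
  set E := Real.exp (covBound v J eps) - 1
  set W := 2 * Real.exp (2 * v.B)
  have hE : 0 ≤ E := by
    have hcov : 0 ≤ covBound v J eps := by
      unfold covBound
      have := g.B_nonneg
      have := pow_nonneg inv_theta_pos.le (2 * v.L)
      positivity
    linarith [Real.one_le_exp hcov]
  have hrow : ∀ j ∈ range J, ∑ k ∈ range J,
      ((∫ x, wave v j x * wave v k x ∂nu) / (coef v j * coef v k) - 1)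
        ≤ J * E + (8 * v.L : ℕ) * W := by
    intro j hj
    rw [mem_range] at hj
    rw [← sum_filter_add_sum_filter_not (range J) (fun k => k + 4 * v.L ≤ j ∨ j + 4 * v.L ≤ k)]
    refine add_le_add ?_ ?_
    · refine (sum_le_sum (g := fun _ => E) fun k hk => ?_).trans ?_
      · rw [mem_filter, mem_range] at hk
        refine (le_abs_self _).trans ?_
        rcases hk.2 with h | h
        · exact ratio_far g hJ hj hk.1 he h
        · have := ratio_far g hJ hk.1 hj he h
          simpa only [mul_comm (wave v (k : ℤ) _), mul_comm (coef v (k : ℤ))] using this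
      · rw [sum_const, nsmul_eq_mul]
        refine mul_le_mul_of_nonneg_right ?_ hE
        have := card_filter_le (range J) (fun k => k + 4 * v.L ≤ j ∨ j + 4 * v.L ≤ k)
        rw [card_range] at this
        exact_mod_cast this
    · refine (sum_le_sum (g := fun _ => W) fun k hk => ?_).trans ?_
      · rw [mem_filter, mem_range] at hk
        exact (le_abs_self _).trans (ratio_any g hJ hj hk.1)
      · rw [sum_const, nsmul_eq_mul]
        refine mul_le_mul_of_nonneg_right ?_ (by positivity)
        have hs : (range J).filter (fun k => ¬(k + 4 * v.L ≤ j ∨ j + 4 * v.L ≤ k))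
            ⊆ Ico (j + 1 - 4 * v.L) (j + 4 * v.L) := by
          intro k; simp only [mem_filter, mem_range, mem_Ico]; omega
        have := card_le_card hs
        rw [Nat.card_Ico] at this
        exact_mod_cast (this.trans (by omega))
  have htot := sum_le_sum hrow
  simp only [sum_sub_distrib, sum_const, card_range, nsmul_eq_mul, mul_one] at htot
  rw [div_sub_one (by positivity), div_le_iff₀ (by positivity)]
  have : (E + 16 * Real.exp (2 * v.B) * v.L / J) * (J : ℝ) ^ 2
      = (J : ℝ) * (J * E + (8 * v.L : ℕ) * W) := by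
    simp only [W]; push_cast; field_simp; ring
  rw [this]
  nlinarith

/-- Under Lebesgue measure on `[-3, 3]` the test function is close to `0`. -/
theorem lebesgue_le (g : Good v) {J : ℕ} (hJ1 : 0 < J) (hJ : (J : ℝ) * v.D ^ 2 ≤ 2) :
    ∫ x, test v J x ^ 2 ∂lebWindow ≤ 30 * Real.exp (2 * v.B) / J := by
  have hJ0 : (0 : ℝ) < J := by exact_mod_cast hJ1
  rw [integral_test_sq, div_le_div_iff₀ (by positivity) hJ0]
  have hq := inv_theta_pos
  have hrow : ∀ j ∈ range J, ∑ k ∈ range J,
      (∫ x, wave v j x * wave v k x ∂lebWindow) / (coef v j * coef v k)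
        ≤ 30 * Real.exp (2 * v.B) := by
    intro j hj
    rw [mem_range] at hj
    refine (sum_le_sum (g := fun k => 6 * Real.exp (2 * v.B) * theta⁻¹ ^ ((j - k) + (k - j)))
      fun k hk => ?_).trans ?_
    · rw [mem_range] at hk
      refine (le_abs_self _).trans ?_
      rw [abs_div, div_eq_mul_inv]
      calc _ ≤ 6 * theta⁻¹ ^ ((j - k) + (k - j)) * Real.exp (2 * v.B) :=
            mul_le_mul (corr_leb g j k) (inv_coef_mul_le g hJ hj hk) (by positivity) (by positivity)
        _ = _ := by ring
    · rw [← mul_sum, ← sum_filter_add_sum_filter_not (range J) (fun k => k ≤ j)]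
      have hs : (1 - theta⁻¹)⁻¹ ≤ 5 / 2 := by
        rw [inv_le_iff_one_le_mul₀ (by linarith [inv_theta_le])]; linarith [inv_theta_le]
      have h1 := (sum_geom_le hq.le (by linarith [inv_theta_le]) ((range J).filter (fun k => k ≤ j))
        (fun k => (j - k) + (k - j)) (by
          intro a ha b hb h
          simp only [coe_filter, Set.mem_ofPred_eq] at ha hb h
          omega)).trans hs
      have h2 := (sum_geom_le hq.le (by linarith [inv_theta_le]) ((range J).filter (fun k => ¬ k ≤ j))
        (fun k => (j - k) + (k - j)) (by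
          intro a ha b hb h
          simp only [coe_filter, Set.mem_ofPred_eq] at ha hb h
          omega)).trans hs
      nlinarith [Real.exp_pos (2 * v.B)]
  have htot := sum_le_sum hrow
  simp only [sum_const, card_range, nsmul_eq_mul] at htot
  nlinarith

/-- The levels. -/
noncomputable def levels : ℕ → {v : Level // Good v}
  | 0 => ⟨baseLevel, baseLevel_good⟩
  | k + 1 => ⟨Classical.choose (exists_next (levels k).2),
      (Classical.choose_spec (exists_next (levels k).2)).1⟩

theorem levels_succ (k : ℕ) :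
    (levels (k + 1)).1.B = 21 / 10 * (levels k).1.B + stepCost ∧
    (levels (k + 1)).1.D ^ 4 ≤ 26 ^ 4 * (levels k).1.D ^ 9 ∧
    5 * (levels k).1.L ≤ (levels (k + 1)).1.L :=
  (Classical.choose_spec (exists_next (levels k).2)).2

theorem levels_B (k : ℕ) : (levels k).1.B ≤ 4100000 * (21 / 10 : ℝ) ^ k := by
  suffices h : (levels k).1.B + 4001000 ≤ 4100000 * (21 / 10 : ℝ) ^ k by linarith
  induction k with
  | zero => norm_num [levels, baseLevel]
  | succ k ih =>
    have h := (levels_succ k).1
    simp only [stepCost] at h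
    rw [h, pow_succ]
    linarith

theorem levels_D (k : ℕ) : (levels k).1.D ≤ Real.exp (-(4 * (9 / 4 : ℝ) ^ k)) := by
  have key : ∀ k, 4 * (9 / 4 : ℝ) ^ k ≤ -Real.log (levels k).1.D - 4 := by
    intro k
    induction k with
    | zero =>
      have h8 : (8 : ℝ) ≤ Real.log 5000 := by
        rw [Real.le_log_iff_exp_le (by norm_num)]
        calc Real.exp 8 = Real.exp 1 ^ 8 := by rw [← Real.exp_nat_mul]; norm_num
          _ ≤ (2.7182818286 : ℝ) ^ 8 := pow_le_pow_left₀ (Real.exp_pos 1).le Real.exp_one_lt_d9.le 8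
          _ ≤ 5000 := by norm_num
      simp only [levels, baseLevel, pow_zero, mul_one, one_div, Real.log_inv, neg_neg]
      linarith
    | succ k ih =>
      have hD := (levels k).2.D_pos
      have hD' := (levels (k + 1)).2.D_pos
      have h := Real.log_le_log (by positivity) (levels_succ k).2.1
      rw [Real.log_mul (by norm_num) (by positivity), Real.log_pow, Real.log_pow, Real.log_pow] at h
      have h26 : Real.log 26 ≤ 7 / 2 := by
        have e : Real.log 26 ≤ Real.log ((2 : ℝ) ^ 5) := Real.log_le_log (by norm_num) (by norm_num)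
        rw [Real.log_pow] at e
        push_cast at e
        linarith [Real.log_two_lt_d9]
      push_cast at h
      rw [pow_succ]
      linarith
  have hD := (levels k).2.D_pos
  rw [← Real.exp_log hD]
  gcongr
  linarith [key k]

theorem levels_L (k : ℕ) : 5 ^ k ≤ (levels k).1.L := by
  induction k with
  | zero => simp [levels, baseLevel]
  | succ k ih =>
    have := (levels_succ k).2.2
    rw [pow_succ]; omega

/-- The weight `(B + 1) (k + 1)`. -/
noncomputable def wt (k : ℕ) : ℝ := ((levels k).1.B + 1) * (k + 1)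

/-- The number of waves used at level `k`. -/
noncomputable def waves (k : ℕ) : ℕ := ⌊1 / ((levels k).1.D ^ 2 * wt k ^ 2)⌋₊ + 1

theorem one_le_wt (k : ℕ) : 1 ≤ wt k := by
  have := (levels k).2.B_nonneg
  unfold wt
  nlinarith [(Nat.cast_nonneg k : (0 : ℝ) ≤ k)]

theorem waves_bounds (k : ℕ) :
    1 / ((levels k).1.D ^ 2 * wt k ^ 2) ≤ (waves k : ℝ) ∧
    (waves k : ℝ) * (levels k).1.D ^ 2 ≤ 1 / wt k ^ 2 + (levels k).1.D ^ 2 ∧
    (waves k : ℝ) * (levels k).1.D ^ 2 ≤ 2 := by
  have hD := (levels k).2.D_pos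
  have hD1 := (levels k).2.D_le
  have hw := one_le_wt k
  set y := 1 / ((levels k).1.D ^ 2 * wt k ^ 2)
  have hy : 0 ≤ y := by positivity
  have h1 := Nat.lt_floor_add_one y
  have h2 := Nat.floor_le hy
  have hwav : (waves k : ℝ) = (⌊y⌋₊ : ℝ) + 1 := by simp [waves, y]
  have e : y * (levels k).1.D ^ 2 = 1 / wt k ^ 2 := by simp only [y]; field_simp
  refine ⟨by rw [hwav]; linarith, ?_, ?_⟩
  · rw [hwav, add_mul, one_mul, ← e]
    gcongr
  · rw [hwav, add_mul, one_mul]
    have h3 : (⌊y⌋₊ : ℝ) * (levels k).1.D ^ 2 ≤ 1 / wt k ^ 2 := by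
      rw [← e]; gcongr
    have : 1 / wt k ^ 2 ≤ 1 := by
      rw [div_le_one (by positivity)]; nlinarith
    have : (levels k).1.D ^ 2 ≤ 1 := by nlinarith
    linarith

theorem tendsto_main : Tendsto (fun k => Real.exp (2 * (levels k).1.B) * wt k ^ 2 * (levels k).1.D)
    atTop (𝓝 0) := by
  refine squeeze_zero (g := fun k : ℕ => Real.exp (16400000 * (21 / 10 : ℝ) ^ k + 2 * k
    - 4 * (9 / 4 : ℝ) ^ k)) (fun k => by have := (levels k).2.D_pos; positivity) (fun k => ?_) ?_
  · have hB := levels_B k
    have h1 : wt k ≤ Real.exp ((levels k).1.B + k) := by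
      rw [Real.exp_add]
      have := (levels k).2.B_nonneg
      unfold wt
      gcongr
      · exact Real.add_one_le_exp _
      · exact Real.add_one_le_exp _
    have hw := one_le_wt k
    calc Real.exp (2 * (levels k).1.B) * wt k ^ 2 * (levels k).1.D
        ≤ Real.exp (2 * (levels k).1.B) * Real.exp ((levels k).1.B + k) ^ 2
            * Real.exp (-(4 * (9 / 4 : ℝ) ^ k)) := by
          have := (levels k).2.D_pos
          gcongr
          exact levels_D k
      _ = Real.exp (4 * (levels k).1.B + 2 * k - 4 * (9 / 4 : ℝ) ^ k) := by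
          rw [← Real.exp_nat_mul, ← Real.exp_add, ← Real.exp_add]; congr 1; push_cast; ring
      _ ≤ _ := by
          refine Real.exp_le_exp.2 ?_
          linarith
  · refine Real.tendsto_exp_atBot.comp ?_
    have h1 : Tendsto (fun k : ℕ => 16400000 * (14 / 15 : ℝ) ^ k + 2 * ((k : ℝ) * (4 / 9 : ℝ) ^ k) - 4)
        atTop (𝓝 (16400000 * 0 + 2 * 0 - 4)) :=
      (((tendsto_pow_atTop_nhds_zero_of_lt_one (by norm_num) (by norm_num)).const_mul _).add
        ((tendsto_self_mul_const_pow_of_lt_one (by norm_num) (by norm_num)).const_mul _)).sub_const _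
    have h2 := (tendsto_pow_atTop_atTop_of_one_lt (by norm_num : (1 : ℝ) < 9 / 4)).atTop_mul_neg
      (by norm_num) h1
    refine h2.congr fun k => ?_
    have e1 : (9 / 4 : ℝ) ^ k * (14 / 15 : ℝ) ^ k = (21 / 10 : ℝ) ^ k := by
      rw [← mul_pow]; norm_num
    have e2 : (9 / 4 : ℝ) ^ k * (4 / 9 : ℝ) ^ k = 1 := by rw [← mul_pow]; norm_num
    linear_combination 16400000 * e1 + 2 * (k : ℝ) * e2

theorem tendsto_geometric : Tendsto (fun k => theta⁻¹ ^ (2 * (levels k).1.L) * wt k) atTop (𝓝 0) := by
  refine squeeze_zero (g := fun k : ℕ => 4100001 * ((k : ℝ) * (21 / 50 : ℝ) ^ k + (21 / 50 : ℝ) ^ k))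
    (fun k => mul_nonneg (pow_nonneg inv_theta_pos.le _) (zero_le_one.trans (one_le_wt k)))
    (fun k => ?_) ?_
  · have hq := inv_theta_pos
    have hqle := inv_theta_le
    have h1 : theta⁻¹ ^ (2 * (levels k).1.L) ≤ ((5 : ℝ) ^ k)⁻¹ := by
      calc theta⁻¹ ^ (2 * (levels k).1.L) ≤ theta⁻¹ ^ (2 * 5 ^ k) :=
            pow_le_pow_of_le_one hq.le (by linarith) (by have := levels_L k; omega)
        _ = (theta⁻¹ ^ 2) ^ (5 ^ k : ℕ) := by rw [pow_mul]
        _ ≤ (1 / 2 : ℝ) ^ (5 ^ k : ℕ) := pow_le_pow_left₀ (by positivity) (by nlinarith) _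
        _ = ((2 : ℝ) ^ (5 ^ k : ℕ))⁻¹ := by rw [one_div, inv_pow]
        _ ≤ _ := by
          refine inv_anti₀ (by positivity) ?_
          exact_mod_cast (Nat.lt_two_pow_self (n := 5 ^ k)).le
    have h2 : wt k ≤ 4100001 * (21 / 10 : ℝ) ^ k * ((k : ℝ) + 1) := by
      have := levels_B k
      have h21 : (1 : ℝ) ≤ (21 / 10 : ℝ) ^ k := one_le_pow₀ (by norm_num)
      unfold wt
      gcongr
      linarith
    calc theta⁻¹ ^ (2 * (levels k).1.L) * wt k
        ≤ ((5 : ℝ) ^ k)⁻¹ * (4100001 * (21 / 10 : ℝ) ^ k * ((k : ℝ) + 1)) :=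
          mul_le_mul h1 h2 (zero_le_one.trans (one_le_wt k)) (by positivity)
      _ = _ := by
        rw [← inv_pow]
        have e : ((5 : ℝ)⁻¹) ^ k * (21 / 10 : ℝ) ^ k = (21 / 50 : ℝ) ^ k := by
          rw [← mul_pow]; norm_num
        linear_combination 4100001 * ((k : ℝ) + 1) * e
  · simpa using ((tendsto_self_mul_const_pow_of_lt_one (r := (21 / 50 : ℝ)) (by norm_num)
      (by norm_num)).add (tendsto_pow_atTop_nhds_zero_of_lt_one (by norm_num) (by norm_num))).const_mul
      (4100001 : ℝ)

theorem tendsto_covBound :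
    Tendsto (fun k => covBound (levels k).1 (waves k) (1 / wt k)) atTop (𝓝 0) := by
  refine squeeze_zero (g := fun k : ℕ => 500 * (1 / ((k : ℝ) + 1))
    + 75 * (theta⁻¹ ^ (2 * (levels k).1.L) * wt k)
    + 100 * (Real.exp (2 * (levels k).1.B) * wt k ^ 2 * (levels k).1.D)) (fun k => ?_) (fun k => ?_) ?_
  · have := (levels k).2.B_nonneg
    have := one_le_wt k
    have := pow_nonneg inv_theta_pos.le (2 * (levels k).1.L)
    unfold covBound; positivity
  · have hB := (levels k).2.B_nonneg
    have hD := (levels k).2.D_pos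
    have hD1 := (levels k).2.D_le
    have hw := one_le_wt k
    have hJ := (waves_bounds k).2.1
    have hk : ((k : ℝ) + 1) ≤ wt k := by
      unfold wt; nlinarith [(Nat.cast_nonneg k : (0 : ℝ) ≤ k)]
    have e : covBound (levels k).1 (waves k) (1 / wt k) = 400 * ((levels k).1.B / wt k)
        + 75 * (theta⁻¹ ^ (2 * (levels k).1.L) * wt k)
        + 100 * (((waves k : ℝ) * (levels k).1.D ^ 2) * wt k) := by
      unfold covBound; field_simp; ring
    have h1 : (levels k).1.B / wt k ≤ 1 / ((k : ℝ) + 1) := by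
      rw [div_le_div_iff₀ (by linarith) (by positivity)]
      unfold wt; nlinarith [(Nat.cast_nonneg k : (0 : ℝ) ≤ k)]
    have h2 : ((waves k : ℝ) * (levels k).1.D ^ 2) * wt k ≤
        1 / ((k : ℝ) + 1) + Real.exp (2 * (levels k).1.B) * wt k ^ 2 * (levels k).1.D := by
      refine (mul_le_mul_of_nonneg_right hJ (by linarith)).trans ?_
      rw [add_mul]
      refine add_le_add ?_ ?_
      · rw [show 1 / wt k ^ 2 * wt k = 1 / wt k by field_simp]
        exact one_div_le_one_div_of_le (by positivity) hk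
      · have h1 : (1 : ℝ) ≤ Real.exp (2 * (levels k).1.B) := Real.one_le_exp (by linarith)
        calc (levels k).1.D ^ 2 * wt k = 1 * ((levels k).1.D * wt k) * (levels k).1.D := by ring
          _ ≤ Real.exp (2 * (levels k).1.B) * wt k ^ 2 * (levels k).1.D := by
            gcongr
            nlinarith
    rw [e]
    linarith
  · have := ((tendsto_one_div_add_atTop_nhds_zero_nat.const_mul (500 : ℝ)).add
      (tendsto_geometric.const_mul 75)).add (tendsto_main.const_mul 100)
    simpa using this

theorem tendsto_variance :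
    Tendsto (fun k => ∫ x, (test (levels k).1 (waves k) x - 1) ^ 2 ∂nu) atTop (𝓝 0) := by
  refine squeeze_zero (g := fun k : ℕ => (Real.exp (covBound (levels k).1 (waves k) (1 / wt k)) - 1)
    + 16 * (Real.exp (2 * (levels k).1.B) * wt k ^ 2 * (levels k).1.D))
    (fun k => integral_nonneg fun x => sq_nonneg _) (fun k => ?_) ?_
  · have g := (levels k).2
    have hw := one_le_wt k
    refine (variance_le g (J := waves k) (by simp [waves]) (waves_bounds k).2.2
      (show 0 < 1 / wt k by positivity)).trans ?_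
    gcongr
    have hD := g.D_pos
    have hJ := (waves_bounds k).1
    have hLD : (((levels k).1.L : ℝ) * (levels k).1.D) ≤ 1 := by
      refine (pow_le_one_iff_of_nonneg (n := 4) (by positivity) (by norm_num)).1 ?_
      calc (((levels k).1.L : ℝ) * (levels k).1.D) ^ 4
          = ((levels k).1.L : ℝ) ^ 4 * (levels k).1.D ^ 3 * (levels k).1.D := by ring
        _ ≤ 1 * 1 := mul_le_mul g.L_D (by linarith [g.D_le]) hD.le zero_le_one
        _ = 1 := one_mul 1
    calc 16 * Real.exp (2 * (levels k).1.B) * (levels k).1.L / (waves k : ℝ)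
        ≤ 16 * Real.exp (2 * (levels k).1.B) * (levels k).1.L
            / (1 / ((levels k).1.D ^ 2 * wt k ^ 2)) := by gcongr
      _ = 16 * (Real.exp (2 * (levels k).1.B) * wt k ^ 2 * (levels k).1.D)
            * ((levels k).1.L * (levels k).1.D) := by field_simp
      _ ≤ _ := mul_le_of_le_one_right (by positivity) hLD
  · have := (((Real.continuous_exp.tendsto 0).comp tendsto_covBound).sub_const 1).add
      (tendsto_main.const_mul 16)
    simpa using this

theorem tendsto_lebesgue :
    Tendsto (fun k => ∫ x, test (levels k).1 (waves k) x ^ 2 ∂lebWindow) atTop (𝓝 0) := by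
  refine squeeze_zero (g := fun k : ℕ =>
    30 * (Real.exp (2 * (levels k).1.B) * wt k ^ 2 * (levels k).1.D))
    (fun k => integral_nonneg fun x => sq_nonneg _) (fun k => ?_) ?_
  · have g := (levels k).2
    have hw := one_le_wt k
    have hD := g.D_pos
    refine (lebesgue_le g (J := waves k) (by simp [waves]) (waves_bounds k).2.2).trans ?_
    calc 30 * Real.exp (2 * (levels k).1.B) / (waves k : ℝ)
        ≤ 30 * Real.exp (2 * (levels k).1.B) / (1 / ((levels k).1.D ^ 2 * wt k ^ 2)) := by
          gcongr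
          exact (waves_bounds k).1
      _ = 30 * (Real.exp (2 * (levels k).1.B) * wt k ^ 2 * (levels k).1.D) * (levels k).1.D := by
          field_simp
      _ ≤ _ := mul_le_of_le_one_right (by positivity) (by linarith [g.D_le])
  · simpa using tendsto_main.const_mul 30

/-- A sequence tending to zero in `L²` fast enough tends to zero almost everywhere. -/
theorem ae_tendsto_zero {μ : Measure ℝ} [IsFiniteMeasure μ] (f : ℕ → ℝ → ℝ)
    (hf : ∀ m, Integrable (fun x => f m x ^ 2) μ)
    (h : ∀ m, ∫ x, f m x ^ 2 ∂μ ≤ (1 / 2 : ℝ) ^ m) :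
    ∀ᵐ x ∂μ, Tendsto (fun m => f m x ^ 2) atTop (𝓝 0) := by
  have hmeas : ∀ m, AEMeasurable (fun x => ENNReal.ofReal (f m x ^ 2)) μ :=
    fun m => (hf m).aemeasurable.ennreal_ofReal
  have hfin : ∫⁻ x, ∑' m, ENNReal.ofReal (f m x ^ 2) ∂μ ≠ ⊤ := by
    rw [lintegral_tsum hmeas]
    refine ne_top_of_le_ne_top (summable_geometric_two.tsum_ofReal_ne_top) (ENNReal.tsum_le_tsum fun m => ?_)
    rw [← ofReal_integral_eq_lintegral_ofReal (hf m) (ae_of_all _ fun x => sq_nonneg _)]
    exact ENNReal.ofReal_le_ofReal (h m)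
  filter_upwards [ae_lt_top' (AEMeasurable.tsum hmeas) hfin] with x hx
  have h0 := ENNReal.tendsto_atTop_zero_of_tsum_ne_top hx.ne
  have := (ENNReal.tendsto_toReal ENNReal.zero_ne_top).comp h0
  simpa [Function.comp_def, ENNReal.toReal_ofReal (sq_nonneg _)] using this

theorem nu_mutuallySingular : nu ⟂ₘ volume := by
  have hev : ∀ m : ℕ, ∀ᶠ k in atTop,
      ∫ x, (test (levels k).1 (waves k) x - 1) ^ 2 ∂nu ≤ (1 / 2 : ℝ) ^ m ∧
      ∫ x, test (levels k).1 (waves k) x ^ 2 ∂lebWindow ≤ (1 / 2 : ℝ) ^ m := by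
    intro m
    have hp : (0 : ℝ) < (1 / 2) ^ m := by positivity
    exact (tendsto_variance.eventually (eventually_le_nhds hp)).and
      (tendsto_lebesgue.eventually (eventually_le_nhds hp))
  choose ks hks using fun m => (hev m).exists
  set F : ℕ → ℝ → ℝ := fun m => test (levels (ks m)).1 (waves (ks m))
  have hbdd : ∀ (c : ℝ) (m : ℕ) (μ : Measure ℝ) [IsFiniteMeasure μ],
      Integrable (fun x => (F m x - c) ^ 2) μ := by
    intro c m μ _
    set v := (levels (ks m)).1
    set J := waves (ks m)
    refine Integrable.of_bound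
      (((continuous_test v J).sub continuous_const).pow 2).aestronglyMeasurable
      (((∑ j ∈ range J, |coef v j|⁻¹) / J + |c|) ^ 2) (ae_of_all _ fun x => ?_)
    rw [Real.norm_eq_abs, abs_pow]
    refine pow_le_pow_left₀ (abs_nonneg _) ((abs_sub _ _).trans ?_) 2
    gcongr
    simp only [F, test]
    rw [abs_div, Nat.abs_cast]
    gcongr
    refine (abs_sum_le_sum_abs _ _).trans (sum_le_sum fun j _ => ?_)
    rw [abs_div, div_eq_mul_inv]
    exact mul_le_of_le_one_left (by positivity) (abs_cz_le_one _)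
  have h1 : ∀ᵐ x ∂nu, Tendsto (fun m => (F m x - 1) ^ 2) atTop (𝓝 0) :=
    ae_tendsto_zero (fun m x => F m x - 1) (fun m => hbdd 1 m nu) fun m => (hks m).1
  have h2 : ∀ᵐ x ∂lebWindow, Tendsto (fun m => F m x ^ 2) atTop (𝓝 0) :=
    ae_tendsto_zero F (fun m => by simpa using hbdd 0 m lebWindow) fun m => (hks m).2
  have hsupp : ∀ᵐ x ∂nu, x ∈ Set.Icc (-3 : ℝ) 3 := by
    filter_upwards [bernoulliConv_ae_abs_le (lam := theta⁻¹) inv_theta_pos.le
      (by linarith [inv_theta_le])] with x hx
    have : (1 - theta⁻¹)⁻¹ ≤ 3 := by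
      rw [inv_le_iff_one_le_mul₀ (by linarith [inv_theta_le])]; linarith [inv_theta_le]
    exact abs_le.1 (hx.trans this)
  set bad : Set ℝ := {x | ¬(Tendsto (fun m => (F m x - 1) ^ 2) atTop (𝓝 0) ∧ x ∈ Set.Icc (-3 : ℝ) 3)}
  have hbad : nu bad = 0 := ae_iff.1 (h1.and hsupp)
  refine ⟨toMeasurable nu bad, measurableSet_toMeasurable _ _, by rw [measure_toMeasurable, hbad], ?_⟩
  have h2' : volume ({x | ¬Tendsto (fun m => F m x ^ 2) atTop (𝓝 0)} ∩ Set.Icc (-3 : ℝ) 3) = 0 := by
    have := ae_iff.1 h2
    rwa [lebWindow, Measure.restrict_apply' measurableSet_Icc] at this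
  refine measure_mono_null (fun x hx => ?_) h2'
  have hx' : x ∉ bad := fun hb => hx (subset_toMeasurable _ _ hb)
  simp only [bad, Set.mem_ofPred_eq, not_not] at hx'
  refine ⟨fun h0 => ?_, hx'.2⟩
  have hs1 : Tendsto (fun m => |F m x - 1|) atTop (𝓝 0) := by
    have := hx'.1.sqrt
    simpa [Real.sqrt_sq_eq_abs] using this
  have hs2 : Tendsto (fun m => |F m x|) atTop (𝓝 0) := by
    have := h0.sqrt
    simpa [Real.sqrt_sq_eq_abs] using this
  have := le_of_tendsto_of_tendsto' tendsto_const_nhds (hs1.add hs2)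
    (fun m => show (1 : ℝ) ≤ |F m x - 1| + |F m x| by
      rw [abs_sub_comm]
      linarith [le_abs_self (1 - F m x), le_abs_self (F m x)])
  linarith

end Vale.Agent.P105
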