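import Vale.Agent.P105.Level

/-! From one level to the next: multiply by `θ^r - 1` with `ω^r` close to `1`. -/

namespace Vale.Agent.P105

open Real Finset

theorem norm_omega_pow_sub_one_le (r : ℕ) (j : ℤ) :
    ‖omega ^ r - 1‖ ≤ 2 * π * |(r : ℝ) * (phi / (2 * π)) - j| := by
  have hpi := Real.pi_pos
  have e : omega ^ r = Complex.exp (Complex.I * ((2 * π * ((r : ℝ) * (phi / (2 * π)) - j) : ℝ) : ℂ)) := by
    rw [omega, ← Complex.exp_nat_mul, Complex.exp_eq_exp_iff_exists_int]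
    refine ⟨j, ?_⟩
    have : (2 * π * ((r : ℝ) * (phi / (2 * π)) - j) : ℝ) = r * phi - j * (2 * π) := by field_simp
    rw [this]
    push_cast; ring
  rw [e]
  refine (Real.norm_exp_I_mul_ofReal_sub_one_le).trans (le_of_eq ?_)
  rw [Real.norm_eq_abs, abs_mul, abs_of_pos (by positivity : 0 < 2 * π)]

variable {v : Level}

/-- The multiple of the period used for the next level, with the resulting bound for `D`. -/
theorem exists_gap (g : Good v) :
    ∃ (r : ℕ) (D' : ℝ), 4 * v.L ≤ r ∧ (r : ℝ) * v.D ^ 2 ≤ 1 ∧ 0 < D' ∧ D' ≤ v.D / 2 ∧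
      ((v.L + r : ℕ) : ℝ) ^ 4 * D' ^ 3 ≤ 1 ∧ D' ^ 4 ≤ 26 ^ 4 * v.D ^ 9 ∧
      v.D * ‖omega ^ r - 1‖ ≤ D' := by
  have hD0 := g.D_pos
  have hD := g.D_le
  have hpi := Real.pi_lt_d2
  have hLD := g.L_D
  have hL1 : (46 : ℝ) ≤ v.L := by exact_mod_cast g.L_ge
  set x : ℝ := (v.L : ℝ) * v.D
  have hx0 : 0 ≤ x := by positivity
  have hx4 : x ^ 4 ≤ v.D := by
    have := mul_le_mul_of_nonneg_right hLD hD0.le
    simp only [x, mul_pow]; nlinarith
  have hx1 : x ≤ 1 := (pow_le_one_iff_of_nonneg hx0 (by norm_num)).1 (hx4.trans (by linarith))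
  set R : ℕ := ⌊(v.D ^ 2)⁻¹⌋₊
  have hR1 : (R : ℝ) ≤ (v.D ^ 2)⁻¹ := Nat.floor_le (by positivity)
  have hR2 : (v.D ^ 2)⁻¹ < R + 1 := Nat.lt_floor_add_one _
  have hRpos : 0 < R := Nat.floor_pos.2 (by
    rw [le_inv_comm₀ one_pos (by positivity), inv_one]; nlinarith)
  obtain ⟨k, hk0, hkR, hk⟩ := Real.exists_nat_abs_mul_sub_round_le (phi / (2 * π)) hRpos
  have hinv : 1 / ((R : ℝ) + 1) ≤ v.D ^ 2 := by
    rw [one_div, inv_le_comm₀ (by positivity) (by positivity)]; exact hR2.le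
  have hk' : |(k : ℝ) * (phi / (2 * π)) - round ((k : ℝ) * (phi / (2 * π)))| ≤ v.D ^ 2 :=
    hk.trans hinv
  set jk := round ((k : ℝ) * (phi / (2 * π)))
  have hkR' : (k : ℝ) ≤ (v.D ^ 2)⁻¹ := le_trans (by exact_mod_cast hkR) hR1
  by_cases hcase : 4 * v.L ≤ k
  · refine ⟨k, 7 * v.D ^ 3, hcase, ?_, by positivity, by nlinarith [mul_pos hD0 hD0], ?_, ?_, ?_⟩
    · rwa [← le_div_iff₀ (by positivity), one_div]
    · have hL' : ((v.L + k : ℕ) : ℝ) ≤ 101 / 100 * (v.D ^ 2)⁻¹ := by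
        have hLD2 : (v.L : ℝ) * v.D ^ 2 ≤ 1 / 100 := by
          have : x * v.D ≤ 1 * v.D := mul_le_mul_of_nonneg_right hx1 hD0.le
          simp only [x] at this; nlinarith
        rw [← le_div_iff₀ (by positivity), div_eq_mul_inv] at hLD2
        push_cast; nlinarith
      calc ((v.L + k : ℕ) : ℝ) ^ 4 * (7 * v.D ^ 3) ^ 3
          ≤ (101 / 100 * (v.D ^ 2)⁻¹) ^ 4 * (7 * v.D ^ 3) ^ 3 := by gcongr
        _ = (101 / 100) ^ 4 * 343 * v.D := by field_simp; ring
        _ ≤ 1 := by linarith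
    · calc (7 * v.D ^ 3) ^ 4 = 7 ^ 4 * v.D ^ 3 * v.D ^ 9 := by ring
        _ ≤ 26 ^ 4 * v.D ^ 9 := by
          refine mul_le_mul_of_nonneg_right ?_ (by positivity)
          nlinarith [pow_le_one₀ (n := 3) hD0.le (by linarith : v.D ≤ 1)]
    · have h := norm_omega_pow_sub_one_le k jk
      calc v.D * ‖omega ^ k - 1‖ ≤ v.D * (2 * π * v.D ^ 2) := by
            refine mul_le_mul_of_nonneg_left (h.trans ?_) hD0.le
            gcongr
        _ ≤ 7 * v.D ^ 3 := by nlinarith [pow_pos hD0 3]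
  · push Not at hcase
    set q : ℕ := 4 * v.L / k + 1
    have hq1 : 4 * v.L ≤ k * q := by
      have := Nat.div_add_mod (4 * v.L) k
      have := Nat.mod_lt (4 * v.L) hk0
      simp only [q, Nat.mul_add, mul_one]; omega
    have hq2 : k * q ≤ 8 * v.L := by
      have := Nat.div_mul_le_self (4 * v.L) k
      simp only [q, Nat.mul_add, mul_one]
      rw [mul_comm]; omega
    have hq3 : q ≤ 4 * v.L + 1 := Nat.succ_le_succ (Nat.div_le_self _ _)
    have hq3' : (q : ℝ) ≤ 4 * v.L + 1 := by exact_mod_cast hq3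
    have hq2' : ((k * q : ℕ) : ℝ) ≤ 8 * v.L := by exact_mod_cast hq2
    refine ⟨k * q, 26 * v.L * v.D ^ 3, hq1, ?_, by positivity, ?_, ?_, ?_, ?_⟩
    · calc ((k * q : ℕ) : ℝ) * v.D ^ 2 ≤ 8 * v.L * v.D ^ 2 := by gcongr
        _ = 8 * x * v.D := by simp only [x]; ring
        _ ≤ 1 := by nlinarith
    · calc 26 * (v.L : ℝ) * v.D ^ 3 = 26 * x * v.D * v.D := by simp only [x]; ring
        _ ≤ v.D / 2 := by
          have : 26 * x * v.D ≤ 1 / 2 := by nlinarith
          have := mul_le_mul_of_nonneg_right this hD0.le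
          linarith
    · have hL' : ((v.L + k * q : ℕ) : ℝ) ≤ 9 * v.L := by
        push_cast at hq2' ⊢; linarith
      calc ((v.L + k * q : ℕ) : ℝ) ^ 4 * (26 * v.L * v.D ^ 3) ^ 3
          ≤ (9 * v.L) ^ 4 * (26 * v.L * v.D ^ 3) ^ 3 := by gcongr
        _ = 9 ^ 4 * 26 ^ 3 * ((v.L : ℝ) ^ 4 * v.D ^ 3) * x ^ 3 * v.D ^ 3 := by
          simp only [x]; ring
        _ ≤ 9 ^ 4 * 26 ^ 3 * 1 * 1 * (1 / 5000) ^ 3 := by
          gcongr
          exact pow_le_one₀ hx0 hx1
        _ ≤ 1 := by norm_num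
    · calc (26 * (v.L : ℝ) * v.D ^ 3) ^ 4
          = 26 ^ 4 * ((v.L : ℝ) ^ 4 * v.D ^ 3) * v.D ^ 9 := by ring
        _ ≤ 26 ^ 4 * 1 * v.D ^ 9 := by gcongr
        _ = _ := by ring
    · have h := norm_omega_pow_sub_one_le (k * q) (q * jk)
      have e : |((k * q : ℕ) : ℝ) * (phi / (2 * π)) - ((q * jk : ℤ) : ℝ)|
          = (q : ℝ) * |(k : ℝ) * (phi / (2 * π)) - jk| := by
        rw [← abs_of_nonneg (Nat.cast_nonneg q : (0 : ℝ) ≤ q), ← abs_mul]
        push_cast; ring_nf
      rw [e] at h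
      calc v.D * ‖omega ^ (k * q) - 1‖ ≤ v.D * (2 * π * ((4 * v.L + 1) * v.D ^ 2)) := by
            refine mul_le_mul_of_nonneg_left (h.trans ?_) hD0.le
            refine mul_le_mul_of_nonneg_left ?_ (by positivity)
            exact mul_le_mul hq3' hk' (abs_nonneg _) (by positivity)
        _ = 2 * π * (4 * v.L + 1) * v.D ^ 3 := by ring
        _ ≤ _ := by
          refine mul_le_mul_of_nonneg_right ?_ (by positivity)
          nlinarith [Real.pi_pos]

/-- The constant added to the cost at each step. -/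
def stepCost : ℝ := 4401000

/-- One step of the construction. -/
theorem exists_next (g : Good v) :
    ∃ w : Level, Good w ∧ w.B = 21 / 10 * v.B + stepCost ∧ w.D ^ 4 ≤ 26 ^ 4 * v.D ^ 9 ∧
      5 * v.L ≤ w.L := by
  obtain ⟨r, D', hr, hrD, hD'0, hD'half, hLD', hD'9, hz'⟩ := exists_gap g
  have hD0 := g.D_pos
  have hth := one_lt_theta
  have hq := inv_theta_pos
  have hr2 : 2 ≤ theta ^ r := by
    calc (2 : ℝ) ≤ (17 / 10) ^ 2 := by norm_num
      _ ≤ theta ^ 2 := pow_le_pow_left₀ (by norm_num) theta_bounds.1.le _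
      _ ≤ theta ^ r := pow_le_pow_right₀ hth.le (by have := g.L_ge; omega)
  set w : Level := ⟨v.a * (theta ^ r - 1), v.eta * (theta⁻¹ ^ r - 1), v.z * (omega ^ r - 1), D',
    21 / 10 * v.B + stepCost, v.L + r⟩ with hw
  have hpos : ∀ l : ℤ, w.pos l = v.pos (l + r) - v.pos l := by
    intro l
    simp only [hw, Level.pos, zpow_add₀ theta_pos.ne', zpow_natCast]
    ring
  have hsmall := g.small_le
  have hLL : theta⁻¹ ^ (v.L + r) ≤ theta⁻¹ ^ v.L / 2 := by
    rw [pow_add]
    have : theta⁻¹ ^ r ≤ 1 / 2 := by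
      rw [inv_pow, one_div]; exact inv_anti₀ (by norm_num) hr2
    nlinarith [pow_pos hq v.L]
  have hcos : ∀ l : ℤ, 1 / 10 + 8 * (2 * theta⁻¹ ^ v.L + 2 * v.D) ≤ |cz (w.pos l)| := by
    intro l
    rw [hpos]
    obtain ⟨m, p, hcase, hp⟩ := g.pair hr l
    have hp' : 7 * |p| ≤ 8 * (2 * theta⁻¹ ^ v.L + 2 * v.D) := by
      unfold Level.small at hp
      linarith [pow_pos hq v.L]
    rcases hcase with ⟨hx, -, -⟩ | ⟨hx, -, -⟩
    · rw [hx, show v.pos (l + r) - (p + m) = v.pos (l + r) - p + ((-m : ℤ) : ℝ) by push_cast; ring,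
        cz_add_int]
      linarith [abs_cz_sub_le (v.pos (l + r)) p, g.cos_ge (l + r)]
    · rw [hx, show p + m - v.pos l = -(v.pos l - p) + m by ring, cz_add_int, cz_neg]
      linarith [abs_cz_sub_le (v.pos l) p, g.cos_ge l]
  have ht : ∀ l : ℤ, |tz (v.pos (l + r)) * tz (v.pos l)| ≤ 1 / 2 := by
    intro l
    have big : ∀ n : ℤ, |tz (v.pos n)| ≤ 10 := by
      intro n
      have hc := g.cz_ge n
      rw [tz, Real.tan_eq_sin_div_cos, abs_div, div_le_iff₀ (by unfold cz at hc; linarith)]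
      unfold cz at hc
      linarith [Real.abs_sin_le_one (2 * π * v.pos n)]
    have smallT : ∀ p : ℝ, |p| ≤ v.small → |tz p| ≤ 1 / 20 := by
      intro p hp
      have h := tz_sq_small (hp.trans (hsmall.trans (by norm_num)))
      have hp2 : p ^ 2 ≤ (1 / 1000) ^ 2 := by
        rw [← sq_abs]; exact pow_le_pow_left₀ (abs_nonneg p) (hp.trans hsmall) 2
      refine abs_le_of_sq_le_sq (by nlinarith) (by norm_num)
    obtain ⟨m, p, hcase, hp⟩ := g.pair hr l
    rcases hcase with ⟨hx, -, -⟩ | ⟨hx, -, -⟩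
    · rw [abs_mul, hx, tz_add_int]
      calc _ ≤ (10 : ℝ) * (1 / 20) :=
            mul_le_mul (big _) (smallT p hp) (abs_nonneg _) (by norm_num)
        _ = _ := by norm_num
    · rw [abs_mul, hx, tz_add_int, mul_comm]
      calc _ ≤ (10 : ℝ) * (1 / 20) :=
            mul_le_mul (big _) (smallT p hp) (abs_nonneg _) (by norm_num)
        _ = _ := by norm_num
  have htrace : ∀ n : ℕ, ∃ m : ℤ,
      w.a * theta ^ n + w.eta * theta⁻¹ ^ n + 2 * (w.z * omega ^ n).re = m := by
    intro n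
    obtain ⟨a, ha⟩ := g.trace (n + r)
    obtain ⟨b, hb⟩ := g.trace n
    refine ⟨a - b, ?_⟩
    have e : v.z * (omega ^ r - 1) * omega ^ n = v.z * omega ^ (n + r) - v.z * omega ^ n := by
      rw [pow_add]; ring
    simp only [hw, e, Complex.sub_re]
    push_cast
    rw [← ha, ← hb, pow_add, pow_add]; ring
  have heta : |w.eta| ≤ 11 / 100 := by
    simp only [hw, abs_mul]
    have h1 : |theta⁻¹ ^ r - 1| ≤ 1 := by
      have := pow_pos hq r
      have := pow_le_one₀ (n := r) hq.le (by linarith [inv_theta_le])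
      rw [abs_le]; constructor <;> linarith
    calc |v.eta| * |theta⁻¹ ^ r - 1| ≤ 11 / 100 * 1 :=
          mul_le_mul g.eta_le h1 (abs_nonneg _) (by norm_num)
      _ = _ := by norm_num
  have hzle : ‖w.z‖ ≤ D' := by
    simp only [hw, norm_mul]
    exact (mul_le_mul_of_nonneg_right g.z_le (norm_nonneg _)).trans hz'
  have hfwd : ∀ n : ℕ, ∃ (m : ℤ) (e : ℝ),
      w.pos n = e + m ∧ |e| ≤ 11 / 100 * theta⁻¹ ^ n + 2 * D' := by
    intro n
    obtain ⟨m, hm⟩ := htrace n
    refine ⟨m, -(w.eta * theta⁻¹ ^ n) - 2 * (w.z * omega ^ n).re, ?_, ?_⟩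
    · unfold Level.pos; rw [zpow_natCast]; linarith
    · have h1 : |w.eta * theta⁻¹ ^ n| ≤ 11 / 100 * theta⁻¹ ^ n := by
        rw [abs_mul, abs_of_nonneg (pow_nonneg hq.le n)]
        exact mul_le_mul_of_nonneg_right heta (pow_nonneg hq.le n)
      have h2 : |(w.z * omega ^ n).re| ≤ D' := by
        refine (Complex.abs_re_le_norm _).trans ?_
        rw [norm_mul, norm_pow, norm_omega, one_pow, mul_one]; exact hzle
      rw [abs_le] at h1 h2 ⊢
      constructor <;> linarith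
  refine ⟨w, ⟨htrace, ?_, ?_, heta, hzle, hD'0, le_trans hD'half (by linarith [g.D_le]), hLD', ?_,
    ?_, ?_⟩, rfl, hD'9, ?_⟩
  · simp only [hw]
    nlinarith [g.a_one]
  · simp only [hw, pow_add]
    exact mul_le_mul g.a_le (by linarith) (by linarith) (pow_nonneg theta_pos.le _)
  · simp only [hw]; have := g.L_ge; omega
  · intro l
    refine le_trans ?_ (hcos l)
    simp only [hw]
    linarith
  · intro lo N hN
    change (N : ℝ) * D' ^ 2 ≤ 2 at hN
    change _ ≤ 21 / 10 * v.B + stepCost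
    set R : ℕ := ⌊(v.D ^ 2)⁻¹⌋₊
    have hR1 : (R : ℝ) * v.D ^ 2 ≤ 1 := by
      calc (R : ℝ) * v.D ^ 2 ≤ (v.D ^ 2)⁻¹ * v.D ^ 2 :=
            mul_le_mul_of_nonneg_right (Nat.floor_le (by positivity)) (by positivity)
        _ = 1 := by field_simp
    have hR2 : (v.D ^ 2)⁻¹ < R + 1 := Nat.lt_floor_add_one _
    have hsub : Icc lo N ⊆ Icc lo (R : ℤ) ∪ Icc ((R : ℤ) + 1) N := by
      intro l; simp only [mem_union, mem_Icc]; omega
    refine (sum_le_sum_of_subset_of_nonneg hsub fun _ _ _ => cost_nonneg _).trans ?_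
    refine le_trans (le_of_eq (sum_union ?_)) ?_
    · rw [disjoint_left]; intro l; simp only [mem_Icc]; omega
    have hbudget : (((R : ℤ) + r : ℤ) : ℝ) * v.D ^ 2 ≤ 2 := by push_cast; linarith
    have h1 : ∑ l ∈ Icc lo (R : ℤ), cost (w.pos l) ≤ 21 / 10 * v.B + 4400000 := by
      calc ∑ l ∈ Icc lo (R : ℤ), cost (w.pos l)
          ≤ ∑ l ∈ Icc lo (R : ℤ), (cost (v.pos (l + r)) + cost (v.pos l)
              + 2 * |tz (v.pos (l + r)) * tz (v.pos l)|) := by
            refine sum_le_sum fun l _ => ?_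
            rw [hpos]
            exact cost_sub_le (g.cz_ne _) (g.cz_ne _) (ht l)
        _ ≤ v.B + v.B + 2 * (400 * (1 / 8000) * v.B + 1100 / (4 * (1 / 8000))) := by
            rw [sum_add_distrib, sum_add_distrib, ← mul_sum]
            refine add_le_add (add_le_add ?_ ?_) (mul_le_mul_of_nonneg_left ?_ (by norm_num))
            · refine le_trans (le_of_eq ?_) (g.cost_le (lo + r) ((R : ℤ) + r) hbudget)
              rw [← Finset.map_add_right_Icc, sum_map]
              rfl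
            · refine g.cost_le lo R ?_
              push_cast; linarith
            · refine (g.sum_tan_le hr (by omega) hbudget (by norm_num : (0 : ℝ) < 1 / 8000)).trans ?_
              gcongr
              have hp := pow_le_one₀ (n := 2 * v.L) hq.le (by linarith [inv_theta_le])
              push_cast at hbudget ⊢
              linarith
        _ = _ := by ring
    have h2 : ∑ l ∈ Icc ((R : ℤ) + 1) N, cost (w.pos l) ≤ 1000 := by
      set q : ℝ := theta⁻¹ ^ 2
      have hq1 : q < 1 / 2 := by have := inv_theta_le; nlinarith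
      have hs : ∀ l ∈ Icc ((R : ℤ) + 1) N,
          cost (w.pos l) ≤ 100 * q ^ (l - 0).toNat + 400 * D' ^ 2 := by
        intro l hl
        rw [mem_Icc] at hl
        obtain ⟨m, e, he, hb⟩ := hfwd l.toNat
        rw [Int.toNat_of_nonneg (by omega)] at he
        rw [he, cost_add_int]
        have hp1 : theta⁻¹ ^ l.toNat ≤ theta⁻¹ ^ 1 :=
          pow_le_pow_of_le_one hq.le (by linarith [inv_theta_le]) (by omega)
        have hp2 : theta⁻¹ ^ l.toNat ≤ 1 / 10000 := by
          refine inv_pow_small ?_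
          have h20 : (20 : ℝ) < R + 1 := lt_of_le_of_lt (by
            rw [le_inv_comm₀ (by norm_num) (by positivity)]; nlinarith [g.D_le]) hR2
          have : 20 ≤ R := by exact_mod_cast Nat.lt_succ_iff.1 (by exact_mod_cast h20)
          omega
        have h50 : |e| ≤ 1 / 50 := by linarith [g.D_le]
        refine (cost_small h50).trans ?_
        have h2 := pow_le_pow_left₀ (abs_nonneg e) hb 2
        rw [sq_abs] at h2
        have e2 : q ^ (l - 0).toNat = (theta⁻¹ ^ l.toNat) ^ 2 := by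
          simp only [q, sub_zero, ← pow_mul]; ring_nf
        rw [e2]
        nlinarith [sq_nonneg (theta⁻¹ ^ l.toNat - 2 * D')]
      refine (sum_le_sum hs).trans ?_
      rw [sum_add_distrib, ← mul_sum, sum_const, nsmul_eq_mul]
      have hg : ∑ l ∈ Icc ((R : ℤ) + 1) N, q ^ (l - 0).toNat ≤ 2 := by
        refine (sum_le_sum_of_subset_of_nonneg (t := (Icc ((R : ℤ) + 1) N).filter (fun l => 0 ≤ l))
          ?_ fun _ _ _ => by positivity).trans
          (((sum_geom_int_le (by positivity) (by linarith) (Icc ((R : ℤ) + 1) N) 0).2).trans ?_)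
        · intro l; simp only [mem_filter, mem_Icc]; omega
        · rw [inv_le_iff_one_le_mul₀ (by linarith)]; linarith
      have hcard : ((Icc ((R : ℤ) + 1) N).card : ℝ) * (400 * D' ^ 2) ≤ 800 := by
        rcases le_or_gt N 0 with hN0 | hN0
        · rw [Icc_eq_empty (by omega)]; simp
        · have hc : ((Icc ((R : ℤ) + 1) N).card : ℤ) ≤ N := by rw [Int.card_Icc]; omega
          have hc' : ((Icc ((R : ℤ) + 1) N).card : ℝ) ≤ (N : ℝ) := by exact_mod_cast hc
          have := mul_le_mul_of_nonneg_right hc' (show 0 ≤ 400 * D' ^ 2 by positivity)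
          linarith
      linarith
    unfold stepCost
    linarith
  · simp only [hw]; omega

end Vale.Agent.P105
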