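import Mathlib

/-! Trigonometric lemmas: cosines of `2 π x`, their logarithms and tangents. -/

namespace Vale.Agent.P105

open Real Finset

/-- `cos (2 π x)`. -/
noncomputable def cz (x : ℝ) : ℝ := Real.cos (2 * π * x)

/-- `tan (2 π x)`. -/
noncomputable def tz (x : ℝ) : ℝ := Real.tan (2 * π * x)

/-- Minus the logarithm of `|cos (2 π x)|`. -/
noncomputable def cost (x : ℝ) : ℝ := -Real.log |cz x|

theorem cz_add_int (x : ℝ) (n : ℤ) : cz (x + n) = cz x := by
  unfold cz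
  rw [show 2 * π * (x + n) = 2 * π * x + n * (2 * π) by ring, Real.cos_add_int_mul_two_pi]

theorem tz_add_int (x : ℝ) (n : ℤ) : tz (x + n) = tz x := by
  unfold tz
  rw [show 2 * π * (x + n) = 2 * π * x + ((2 * n : ℤ) : ℝ) * π by push_cast; ring,
    Real.tan_add_int_mul_pi]

theorem cost_add_int (x : ℝ) (n : ℤ) : cost (x + n) = cost x := by
  simp [cost, cz_add_int]

theorem cz_neg (x : ℝ) : cz (-x) = cz x := by simp [cz]

theorem abs_cz_le_one (x : ℝ) : |cz x| ≤ 1 := Real.abs_cos_le_one _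

theorem cost_nonneg (x : ℝ) : 0 ≤ cost x := by
  unfold cost
  have := Real.log_nonpos (abs_nonneg (cz x)) (abs_cz_le_one x)
  linarith

theorem abs_cz_sub_le (x y : ℝ) : |cz x| - 7 * |y| ≤ |cz (x - y)| := by
  have h := Real.abs_cos_sub_cos_le (2 * π * x) (2 * π * (x - y))
  have h2 : |2 * π * x - 2 * π * (x - y)| = 2 * π * |y| := by
    rw [show 2 * π * x - 2 * π * (x - y) = 2 * π * y by ring, abs_mul,
      abs_of_pos (by positivity)]
  have h3 := abs_sub_abs_le_abs_sub (cz x) (cz (x - y))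
  have h4 : 2 * π * |y| ≤ 7 * |y| := by
    have := Real.pi_lt_d2
    exact mul_le_mul_of_nonneg_right (by linarith) (abs_nonneg y)
  have h5 : |cz x - cz (x - y)| ≤ 2 * π * |y| := h2 ▸ h
  linarith

theorem tz_sq_le_cost {x c : ℝ} (hc : 0 < c) (h : c ≤ |cz x|) :
    tz x ^ 2 ≤ 2 / c ^ 2 * cost x := by
  have hne : cz x ≠ 0 := fun h0 => by rw [h0, abs_zero] at h; linarith
  have hpos : 0 < cz x ^ 2 := by positivity
  have hl := Real.log_le_sub_one_of_pos hpos
  have hlog : Real.log (cz x ^ 2) = -2 * cost x := by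
    unfold cost
    rw [← sq_abs, Real.log_pow]
    push_cast; ring
  have hs : Real.sin (2 * π * x) ^ 2 ≤ 2 * cost x := by
    have := Real.sin_sq (2 * π * x)
    unfold cz at hl hlog
    linarith
  have hcc : c ^ 2 ≤ cz x ^ 2 := by
    rw [← sq_abs (cz x)]; exact pow_le_pow_left₀ hc.le h 2
  calc tz x ^ 2 = Real.sin (2 * π * x) ^ 2 / cz x ^ 2 := by
        rw [tz, cz, Real.tan_eq_sin_div_cos, div_pow]
    _ ≤ (2 * cost x) / c ^ 2 :=
        div_le_div₀ (by linarith [sq_nonneg (Real.sin (2 * π * x))]) hs (by positivity) hcc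
    _ = _ := by ring

theorem cz_small {p : ℝ} (hp : |p| ≤ 1 / 50) : 1 - 20 * p ^ 2 ≤ cz p ∧ (99 : ℝ) / 100 ≤ cz p := by
  have h := Real.one_sub_sq_div_two_le_cos (x := 2 * π * p)
  have hpi2 : π ^ 2 ≤ 10 := by
    have := Real.pi_lt_d2
    nlinarith [Real.pi_pos]
  have h1 : (2 * π * p) ^ 2 / 2 ≤ 20 * p ^ 2 := by
    have := mul_le_mul_of_nonneg_right hpi2 (sq_nonneg p)
    nlinarith
  have h2 : p ^ 2 ≤ 1 / 2500 := by
    rw [← sq_abs]; nlinarith [abs_nonneg p]
  unfold cz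
  constructor <;> linarith

theorem cost_small {p : ℝ} (hp : |p| ≤ 1 / 50) : cost p ≤ 50 * p ^ 2 := by
  obtain ⟨h1, h2⟩ := cz_small hp
  have hpos : 0 < cz p := by linarith
  unfold cost
  rw [abs_of_pos hpos]
  have := Real.one_sub_inv_le_log_of_pos hpos
  have h3 : (cz p)⁻¹ - 1 ≤ 50 * p ^ 2 := by
    rw [sub_le_iff_le_add, inv_le_iff_one_le_mul₀ hpos]
    nlinarith [sq_nonneg p]
  linarith

theorem tz_sq_small {p : ℝ} (hp : |p| ≤ 1 / 50) : tz p ^ 2 ≤ 50 * p ^ 2 := by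
  obtain ⟨-, h2⟩ := cz_small hp
  have hs : Real.sin (2 * π * p) ^ 2 ≤ 40 * p ^ 2 := by
    have h := Real.abs_sin_le_abs (x := 2 * π * p)
    have hpi2 : π ^ 2 ≤ 10 := by
      have := Real.pi_lt_d2
      nlinarith [Real.pi_pos]
    have h' := sq_le_sq.2 h
    have := mul_le_mul_of_nonneg_right hpi2 (sq_nonneg p)
    nlinarith
  have hcc : (9801 : ℝ) / 10000 ≤ cz p ^ 2 := by nlinarith
  calc tz p ^ 2 = Real.sin (2 * π * p) ^ 2 / cz p ^ 2 := by
        rw [tz, cz, Real.tan_eq_sin_div_cos, div_pow]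
    _ ≤ (40 * p ^ 2) / (9801 / 10000) :=
        div_le_div₀ (by positivity) hs (by norm_num) hcc
    _ ≤ _ := by nlinarith [sq_nonneg p]

/-- The addition rule `cos (α - β) = cos α cos β (1 + tan α tan β)`. -/
theorem cz_sub {x y : ℝ} (hx : cz x ≠ 0) (hy : cz y ≠ 0) :
    cz (x - y) = cz x * cz y * (1 + tz x * tz y) := by
  unfold cz tz at *
  rw [mul_sub, Real.cos_sub, Real.tan_eq_sin_div_cos, Real.tan_eq_sin_div_cos]
  field_simp

theorem cz_add {x y : ℝ} (hx : cz x ≠ 0) (hy : cz y ≠ 0) :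
    cz (x + y) = cz x * cz y * (1 - tz x * tz y) := by
  unfold cz tz at *
  rw [mul_add, Real.cos_add, Real.tan_eq_sin_div_cos, Real.tan_eq_sin_div_cos]
  field_simp

theorem cost_sub_le {x y : ℝ} (hx : cz x ≠ 0) (hy : cz y ≠ 0) (ht : |tz x * tz y| ≤ 1 / 2) :
    cost (x - y) ≤ cost x + cost y + 2 * |tz x * tz y| := by
  set t := tz x * tz y
  have ht' : -t ≤ |t| := neg_le_abs t
  have h1 : (1 : ℝ) / 2 ≤ 1 + t := by linarith
  have hl : -(2 * |t|) ≤ Real.log (1 + t) := by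
    have h := Real.one_sub_inv_le_log_of_pos (show 0 < 1 + t by linarith)
    have : (1 + t)⁻¹ - 1 ≤ 2 * |t| := by
      rw [sub_le_iff_le_add, inv_le_iff_one_le_mul₀ (by linarith)]
      nlinarith [abs_nonneg t]
    linarith
  unfold cost
  rw [cz_sub hx hy, abs_mul, abs_mul, Real.log_mul, Real.log_mul, abs_of_pos (show 0 < 1 + t by linarith)]
  · linarith
  · exact abs_ne_zero.2 hx
  · exact abs_ne_zero.2 hy
  · exact mul_ne_zero (abs_ne_zero.2 hx) (abs_ne_zero.2 hy)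
  · exact abs_ne_zero.2 (by linarith)

/-- If `x` is at distance at least `d` from the zeros of `cos (2 π x)`, then `|cos (2 π x)| ≥ 4 d`. -/
theorem cz_lower {x d : ℝ} (k : ℤ) (hd : 0 ≤ d) (h : |x - k / 2| ≤ 1 / 4 - d) :
    4 * d ≤ |cz x| := by
  have hpi := Real.pi_pos
  set y := x - (k : ℝ) / 2
  have hy : cz x = (-1) ^ k * cz y := by
    unfold cz
    rw [show 2 * π * x = 2 * π * y + k * π by simp only [y]; ring, Real.cos_add_int_mul_pi]
  have hb : |2 * π * y| ≤ π / 2 := by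
    rw [abs_mul, abs_of_pos (by positivity : 0 < 2 * π)]
    nlinarith [abs_nonneg y]
  have hj := Real.one_sub_mul_le_cos (x := |2 * π * y|) (abs_nonneg _) hb
  rw [Real.cos_abs] at hj
  have e : 2 / π * |2 * π * y| = 4 * |y| := by
    rw [abs_mul, abs_of_pos (by positivity : 0 < 2 * π)]
    field_simp
    ring
  rw [e] at hj
  have hc : 4 * d ≤ cz y := by unfold cz; linarith
  rw [hy, abs_mul, abs_zpow, abs_neg, abs_one, one_zpow, one_mul]
  exact hc.trans (le_abs_self _)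

theorem abs_prod_one_add_sub_one_le {ι : Type*} (s : Finset ι) (t : ι → ℝ) :
    |∏ i ∈ s, (1 + t i) - 1| ≤ Real.exp (∑ i ∈ s, |t i|) - 1 := by
  classical
  induction s using Finset.induction_on with
  | empty => simp
  | @insert a s ha ih =>
    rw [prod_insert ha, sum_insert ha, Real.exp_add]
    set P := ∏ i ∈ s, (1 + t i)
    set E := Real.exp (∑ i ∈ s, |t i|)
    have h1 : (1 + t a) * P - 1 = (1 + t a) * (P - 1) + t a := by ring
    have h2 : |1 + t a| ≤ 1 + |t a| := (abs_add_le _ _).trans (by simp)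
    have hE : 1 ≤ E := Real.one_le_exp (sum_nonneg fun i _ => abs_nonneg _)
    have h3 : 1 + |t a| ≤ Real.exp |t a| := by linarith [Real.add_one_le_exp |t a|]
    calc |(1 + t a) * P - 1| ≤ |1 + t a| * |P - 1| + |t a| := by
          rw [h1, ← abs_mul]; exact abs_add_le _ _
      _ ≤ (1 + |t a|) * (E - 1) + |t a| := by gcongr
      _ ≤ Real.exp |t a| * E - 1 := by nlinarith

theorem sum_geom_le {q : ℝ} (hq : 0 ≤ q) (hq1 : q < 1) {ι : Type*} (s : Finset ι) (f : ι → ℕ)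
    (hf : Set.InjOn f (s : Set ι)) : ∑ i ∈ s, q ^ f i ≤ (1 - q)⁻¹ := by
  classical
  rw [← sum_image (f := fun n => q ^ n) hf, ← tsum_geometric_of_lt_one hq hq1]
  exact Summable.sum_le_tsum _ (fun i _ => pow_nonneg hq i) (summable_geometric_of_lt_one hq hq1)

end Vale.Agent.P105
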